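import Vale.Agent.P159.RSW.L2b

/-!
# RSW, rows L3 and ArmAll (v2)
-/

namespace Vale.Agent.P159.RSW

namespace H935

open Vale.Agent.P145.FB Vale.Agent.P153 Vale.Agent.P153.Topo Relation

theorem det3 (B r W : ℤ) (hr : 1 ≤ r) (hB : 20 * r ≤ B) (hB2 : B < 2000 * r)
    (hW : W = B - B / 50) (S : Set (ℤ × ℤ)) (h : LRc 0 W 0 B S) :
    ∃ i : ℕ, i ≤ 1999 ∧ WArm 0 B 0 B (W - r) (cl B r (i * r)) r S := by
  obtain ⟨u, v, huv, hu, hv⟩ := h
  have hv2 := huv.right_mem.2
  rw [mem_rc] at hv2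
  obtain ⟨i, hi⟩ : ∃ i : ℤ, i = v.2 / (2 * r) := ⟨_, rfl⟩
  have e1 : 2 * r * i ≤ v.2 := by rw [hi]; exact Int.mul_ediv_self_le (by omega)
  have e2 : v.2 < 2 * r * i + 2 * r := by
    rw [hi]; exact Int.lt_mul_ediv_self_add (by omega)
  have e3 : 0 ≤ i := by rw [hi]; exact Int.ediv_nonneg (by omega) (by omega)
  have e4 : i ≤ 1999 := by
    by_contra hcon
    have : 2 * r * 2000 ≤ 2 * r * i := mul_le_mul_of_nonneg_left (by omega) (by omega)
    omega
  have e5 : ((i.toNat : ℕ) : ℤ) = i := Int.toNat_of_nonneg e3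
  have e6 : 2 * r * i = 2 * (i * r) := by ring
  refine ⟨i.toNat, by omega, v, u, ?_, ?_, by omega⟩
  · exact huv.symm.mono (Set.inter_subset_inter_right _ (rc_mono le_rfl (by omega) le_rfl le_rfl))
  · rw [e5]
    show v ∈ rc (W - r) (W - r + r) (cl B r (i * r)) (cl B r (i * r) + r)
    rw [mem_rc]
    unfold cl
    omega

theorem l3Stmt2 : L3Stmt2 := by
  intro P c0 B r h0 hr hB hB2 hL
  refine sym P _ B r (by omega) ?_
  by_contra hcon
  obtain ⟨W, hW⟩ : ∃ W : ℤ, W = B - B / 50 := ⟨_, rfl⟩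
  rw [← hW] at hL
  have hW' : ∀ c : ℤ, P.p (WArm 0 B 0 B (W - r) (cl B r c) r) ≤ c0 / 5000 := by
    intro c
    by_contra h
    push Not at h
    refine hcon ⟨W - r, cl B r c, ?_, ?_, ?_, ?_, h.le⟩
    · unfold cl; omega
    · unfold cl; omega
    · omega
    · omega
  have A := union_le P (fun i => WArm 0 B 0 B (W - r) (cl B r (i * r)) r) (fun i => hW' _) 1999
  have key : P.p (LRc 0 W 0 B) ≤ _ := P.mono _ _ (fun S hS => det3 B r W hr hB hB2 hW S hS)
  have hL' : c0 ≤ P.p (LRc 0 W 0 B) := hL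
  push_cast at A
  have := (hL'.trans key).trans A
  linarith

theorem armAll2_of (G : Geo) (h2 : L2Stmt2) (h3 : L3Stmt2) : ArmAll2 := by
  intro P c0 r N h0 hr hsq heps
  have key : ∀ n : ℕ, ∀ B : ℤ, B ≤ n → 20 * r ≤ B → B ≤ N → ARM P (c0 / 5000) B r := by
    intro n
    induction n with
    | zero =>
      intro B h1 h2' _
      exfalso
      push_cast at h1
      omega
    | succ n ih =>
      intro B hBn hB hBN
      have hW : c0 ≤ P.L (B - B / 50) B := by
        have h4 := hsq (B - B / 50) (by omega) (by omega)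
        refine h4.trans (P.L_mono G (by omega) le_rfl (by omega))
      rcases lt_or_ge B (2000 * r) with h5 | h5
      · exact h3 P c0 B r h0 hr hB h5 hW
      · refine h2 P c0 B r h0 (hW.trans (P.le_one _)) hr h5 hW ?_ ?_
        · exact ih (B / 13) (by push_cast at hBn; omega) (by omega) (by omega)
        · exact heps (B / 13) (by omega) (by omega)
  intro B hB hBN
  exact key B.toNat B (by omega) hB hBN

theorem armAll2 : ArmAll2 := armAll2_of geo l2Stmt2 l3Stmt2

end H935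

end Vale.Agent.P159.RSW
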