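import Vale.Agent.P159.RSW.L5

/-!
# RSW, last step: from arms at all scales to circuits at all scales
-/

namespace Vale.Agent.P159.RSW

open Vale.Agent.P145.FB

/-- The largest scale in `[20, n]` which is `20` or has a long crossing. -/
theorem exists_last (Q : ℤ → Prop) (n : ℤ) (hn : 20 ≤ n) :
    ∃ r, 20 ≤ r ∧ r ≤ n ∧ (r = 20 ∨ Q r) ∧ ∀ s, r < s → s ≤ n → ¬ Q s := by
  induction n, hn using Int.leInduction with
  | base => exact ⟨20, le_rfl, le_rfl, Or.inl rfl, fun s h1 h2 => by omega⟩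
  | succ n hn ih =>
    by_cases h : Q (n + 1)
    · exact ⟨n + 1, by omega, le_rfl, Or.inr h, fun s h1 h2 => by omega⟩
    · obtain ⟨r, h1, h2, h3, h4⟩ := ih
      refine ⟨r, h1, by omega, h3, fun s h5 h6 => ?_⟩
      rcases eq_or_lt_of_le h6 with h7 | h7
      · rw [h7]; exact h
      · exact h4 s h5 (by omega)

/-- The circuit constant at the last good scale. -/
noncomputable def kL (c0 c1 : ℝ) : ℝ :=
  min c1 ((c0 / 5000) ^ 6 * (c0 * (c0 / 5000) ^ 6) ^ 19)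

/-- The constant for `n < 5000 r`. -/
noncomputable def kA (c0 c1 : ℝ) : ℝ := kL c0 c1 * (c0 * kL c0 c1) ^ 10000

/-- The constant for `5000 r ≤ n`: the ratio 6/5. -/
noncomputable def kE (c0 c1 : ℝ) : ℝ := (c0 / 5000) ^ 2 * kL c0 c1 ^ 4

/-- The constant for `5000 r ≤ n`: the ratio 4. -/
noncomputable def kB (c0 c1 : ℝ) : ℝ := kE c0 c1 * (c0 * kE c0 c1) ^ 19

/-- The constant for the long crossings. -/
noncomputable def kM (c0 c1 : ℝ) : ℝ := min 1 (min (kA c0 c1) (kB c0 c1))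

theorem kL_pos {c0 c1 : ℝ} (h0 : 0 < c0) (h1 : 0 < c1) : 0 < kL c0 c1 := by
  unfold kL; positivity

theorem kE_pos {c0 c1 : ℝ} (h0 : 0 < c0) (h1 : 0 < c1) : 0 < kE c0 c1 := by
  have := kL_pos h0 h1
  unfold kE; positivity

theorem kM_pos {c0 c1 : ℝ} (h0 : 0 < c0) (h1 : 0 < c1) : 0 < kM c0 c1 := by
  have := kL_pos h0 h1
  have := kE_pos h0 h1
  unfold kM kA kB
  positivity

/-- The long crossing of ratio 4 at the last good scale. -/
theorem L_last (P : PP) {c0 c1 : ℝ} (h0 : 0 < c0) {r : ℤ} (hr : 20 ≤ r)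
    (hsq : c0 ≤ P.L r (r + r / 50)) (hc1 : c1 ≤ P.L 80 20)
    (h : r = 20 ∨ (c0 / 5000) ^ 6 < Eps P r) : kL c0 c1 ≤ P.L (4 * r) r := by
  rcases h with h | h
  · subst h
    exact (min_le_left _ _).trans (by norm_num; exact hc1)
  · exact (min_le_right _ _).trans
      (l5core P c0 ((c0 / 5000) ^ 6) r h0.le (by positivity) hr hsq h.le)

/-- The scales `n < 5000 r`. -/
theorem L_near (P : PP) {c0 l : ℝ} (h0 : 0 < c0) (hl : 0 < l) {r n : ℤ} (hr : 20 ≤ r)
    (hrn : r ≤ n) (hn : n < 5000 * r) (hsq : c0 ≤ P.L r (r + r / 50)) (h : l ≤ P.L (4 * r) r) :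
    l * (c0 * l) ^ 10000 ≤ P.L (4 * n) n := by
  have h1 := L_iterO P geo h0.le (w := 4 * r) (h := r) (o := r + r / 50) (by omega) (by omega)
    hsq (by omega) hl.le h 10000
  refine h1.trans (P.L_mono geo (by omega) ?_ hrn)
  push_cast
  omega

/-- The last step of the theorem, in the form with easy crossings. -/
theorem fincore
    (hArm : ∀ (P : PP) (c0 : ℝ) (r N : ℤ), 0 < c0 → 1 ≤ r →
      (∀ s, 1 ≤ s → s ≤ N → c0 ≤ P.L s (s + s / 50)) →
      (∀ s, r < s → s ≤ N → Eps P s ≤ (c0 / 5000) ^ 6) →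
      ∀ B, 20 * r ≤ B → B ≤ N → ARM P (c0 / 5000) B r)
    (h4 : L4Stmt) (c0 c1 : ℝ) (h0 : 0 < c0) (h1 : 0 < c1) :
    ∃ c : ℝ, 0 < c ∧ ∀ (P : PP) (N : ℤ),
      (∀ s, 1 ≤ s → s ≤ N → c0 ≤ P.L s (s + s / 50)) → c1 ≤ P.L 80 20 →
      ∀ n, 20 ≤ n → n ≤ N → c ≤ P.L (4 * n) n ∧ ∀ p q : ℤ, c ≤ P.p (Ann p q n) := by
  have hm := kM_pos h0 h1
  have hl := kL_pos h0 h1
  have he := kE_pos h0 h1
  have hm1 : kM c0 c1 ≤ 1 := min_le_left _ _
  refine ⟨kM c0 c1 ^ 4, by positivity, fun P N hsq hc1 n hn hnN => ?_⟩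
  have key : kM c0 c1 ≤ P.L (4 * n) n := by
    obtain ⟨r, hr, hrn, hlast, hall⟩ := exists_last (fun t => (c0 / 5000) ^ 6 < Eps P t) n hn
    have hL := L_last P h0 hr (hsq r (by omega) (by omega)) hc1 hlast
    rcases lt_or_ge n (5000 * r) with hlt | hge
    · exact (min_le_right _ _).trans ((min_le_left _ _).trans
        (L_near P h0 hl hr hrn hlt (hsq r (by omega) (by omega)) hL))
    · have hA := hArm P c0 r n h0 (by omega) (fun s hs1 hs2 => hsq s hs1 (by omega))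
        (fun s hs1 hs2 => not_lt.1 (hall s hs1 hs2)) (n - 4 * r) (by omega) (by omega)
      have hC : kL c0 c1 ^ 4 ≤ P.p (Ann 0 0 r) := P.Ann_ge 0 0 hl.le hL
      have h6 := h4 P (c0 / 5000) (kL c0 c1 ^ 4) (n - 4 * r) r r (by positivity) (by positivity)
        (by omega) le_rfl (by omega) (by omega) hA hC
      have h7 : kE c0 c1 ≤ Eps P n := by
        refine h6.trans (P.L_mono geo (by omega) (by omega) (by omega))
      exact (min_le_right _ _).trans ((min_le_right _ _).trans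
        (l5core P c0 (kE c0 c1) n h0.le he.le hn (hsq n (by omega) hnN) h7))
  refine ⟨le_trans ?_ key, fun p q => P.Ann_ge p q hm.le key⟩
  calc kM c0 c1 ^ 4 ≤ kM c0 c1 ^ 1 := pow_le_pow_of_le_one hm.le hm1 (by norm_num)
    _ = kM c0 c1 := pow_one _

/-- The row (Fin). -/
theorem fin : FinStmt2 := fun hA h4 _ c0 c1 h0 h1 => fincore hA h4 c0 c1 h0 h1

/-- **RSW** from the arms at all scales and (L4). -/
theorem rsw_of (hA : ArmAll2) (h4 : L4Stmt) : RSWStmt2 := fin hA h4 l5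

end Vale.Agent.P159.RSW
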