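import Vale.Agent.P159.RSW.Spec2

/-!
# Step 0: easy crossings of ratio `1 : 4` give near-squares

A crossing of `[0, t] × [0, 4t]` from left to right with small vertical extent is a crossing of a
window, one with large vertical extent crosses some `[0, t] × [y, y + t]` from bottom to top.
-/

namespace Vale.Agent.P159.RSW

open Vale.Agent.P145.FB

/-- The vertical range of a path. -/
theorem nc_range {T : Set (ℤ × ℤ)} {x y : ℤ × ℤ} (h : NC T x y) :
    ∃ (m M : ℤ) (p q : ℤ × ℤ), NC (T ∩ {z | m ≤ z.2 ∧ z.2 ≤ M}) x y ∧ NC T x p ∧ NC T x q ∧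
      p.2 = m ∧ q.2 = M := by
  refine NC.ind (fun y => ∃ (m M : ℤ) (p q : ℤ × ℤ), NC (T ∩ {z | m ≤ z.2 ∧ z.2 ≤ M}) x y ∧
    NC T x p ∧ NC T x q ∧ p.2 = m ∧ q.2 = M) ?_ ?_ h
  · exact ⟨x.2, x.2, x, x, NC.refl ⟨h.1, le_rfl, le_rfl⟩, NC.refl h.1, NC.refl h.1, rfl, rfl⟩
  · rintro u v hu huv hv ⟨m, M, p, q, h1, h2, h3, h4, h5⟩
    have hxv : NC T x v := hu.tail huv hv
    have key : ∀ m' M' : ℤ, m' ≤ m → M ≤ M' → m' ≤ v.2 → v.2 ≤ M' →
        NC (T ∩ {z | m' ≤ z.2 ∧ z.2 ≤ M'}) x v := by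
      intro m' M' a1 a2 a3 a4
      refine (h1.mono ?_).tail huv ⟨hv, a3, a4⟩
      rintro z ⟨b1, b2, b3⟩
      exact ⟨b1, a1.trans b2, b3.trans a2⟩
    rcases lt_or_ge v.2 m with c1 | c1
    · rcases lt_or_ge M v.2 with c2 | c2
      · exact ⟨v.2, v.2, v, v, key _ _ c1.le c2.le le_rfl le_rfl, hxv, hxv, rfl, rfl⟩
      · exact ⟨v.2, M, v, q, key _ _ c1.le le_rfl le_rfl c2, hxv, h3, rfl, h5⟩
    · rcases lt_or_ge M v.2 with c2 | c2
      · exact ⟨m, v.2, p, v, key _ _ le_rfl c2.le c1 le_rfl, h2, hxv, h4, rfl⟩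
      · exact ⟨m, M, p, q, key _ _ le_rfl le_rfl c1 c2, h2, h3, h4, h5⟩

/-- A union bound. -/
theorem ex_le (P : PP) (Q : ℕ → Set (ℤ × ℤ) → Prop) {a : ℝ} (n : ℕ)
    (h : ∀ i ≤ n, P.p (Q i) ≤ a) : P.p (fun S => ∃ i, i ≤ n ∧ Q i S) ≤ (n + 1) * a := by
  induction n with
  | zero =>
    have h1 := P.mono (fun S => ∃ i, i ≤ 0 ∧ Q i S) (Q 0) (by
      rintro S ⟨i, hi, hS⟩
      obtain rfl : i = 0 := by omega
      exact hS)
    have h2 := h 0 le_rfl
    push_cast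
    linarith
  | succ n ih =>
    have h1 := P.mono (fun S => ∃ i, i ≤ n + 1 ∧ Q i S)
      (fun S => (∃ i, i ≤ n ∧ Q i S) ∨ Q (n + 1) S) (by
        rintro S ⟨i, hi, hS⟩
        rcases Nat.lt_or_ge n i with c | c
        · obtain rfl : i = n + 1 := by omega
          exact Or.inr hS
        · exact Or.inl ⟨i, c, hS⟩)
    have h2 := P.or_le (fun S => ∃ i, i ≤ n ∧ Q i S) (Q (n + 1))
    have h3 := ih (fun i hi => h i (by omega))
    have h4 := h (n + 1) le_rfl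
    push_cast at h3 ⊢
    linarith

/-- The extent dichotomy. -/
theorem dich {t k : ℤ} (hk : 1 ≤ k) (ht : 0 ≤ t) {n : ℕ} (hn : 4 * t < (n + 1) * k)
    {S : Set (ℤ × ℤ)} (h : LRc 0 t 0 (4 * t) S) :
    ∃ i : ℕ, i ≤ n ∧ (LRc 0 t (i * k) (i * k + (t + 2 * k)) S ∨
      BTc 0 t ((i + 1) * k) ((i + 1) * k + t) S) := by
  obtain ⟨x, y, hxy, hx, hy⟩ := h
  obtain ⟨m, M, p, q, h1, h2, h3, h4, h5⟩ := nc_range hxy
  have hp := h2.right_mem.2
  rw [mem_rc] at hp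
  have hm0 : 0 ≤ m := by omega
  have hm8 : m ≤ 2 * (4 * t) := by omega
  have hk2 : (0 : ℤ) < 2 * k := by omega
  have hd0 : 0 ≤ m / (2 * k) := Int.ediv_nonneg hm0 hk2.le
  obtain ⟨i, hi⟩ := Int.eq_ofNat_of_zero_le hd0
  have hlo : (2 * k) * (i : ℤ) ≤ m := by
    have := Int.mul_ediv_self_le (x := m) (k := 2 * k) hk2.ne'
    rw [hi] at this
    exact this
  have hhi : m < (2 * k) * ((i : ℤ) + 1) := by
    have := Int.lt_mul_ediv_self_add (x := m) (k := 2 * k) hk2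
    rw [hi] at this
    linarith
  have hin : i ≤ n := by
    by_contra hc
    have h6 : (n : ℤ) + 1 ≤ i := by omega
    have h7 : ((n : ℤ) + 1) * k ≤ i * k := mul_le_mul_of_nonneg_right h6 (by omega)
    have h8 : (2 * k) * (i : ℤ) = 2 * (i * k) := by ring
    linarith
  refine ⟨i, hin, ?_⟩
  have e1 : (2 * k) * (i : ℤ) = 2 * (i * k) := by ring
  have e2 : (2 * k) * ((i : ℤ) + 1) = 2 * ((i + 1) * k) := by ring
  have e3 : ((i : ℤ) + 1) * k = i * k + k := by ring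
  rw [e1] at hlo
  rw [e2] at hhi
  rcases le_or_gt M (2 * (i * k + (t + 2 * k))) with c | c
  · left
    refine ⟨x, y, h1.mono ?_, hx, hy⟩
    rintro z ⟨⟨hz1, hz2⟩, hz3, hz4⟩
    rw [mem_rc] at hz2
    exact ⟨hz1, by rw [mem_rc]; omega⟩
  · right
    have hpq : NC (S ∩ rc 0 t 0 (4 * t)) p q := h2.symm.trans h3
    obtain ⟨z, w, hz, hw, hzw, _, _⟩ := hpq.exit (f := Prod.snd) nn_snd
      (c := 2 * (((i : ℤ) + 1) * k)) (d := 2 * (((i : ℤ) + 1) * k + t)) (by omega)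
      (by omega) (by omega)
    refine ⟨z, w, hzw.mono ?_, hz, hw⟩
    rintro u ⟨⟨hu1, hu2⟩, hu3, hu4⟩
    rw [mem_rc] at hu2
    exact ⟨hu1, by rw [mem_rc]; omega⟩

/-- The straight segment. -/
theorem L_seg (P : PP) {c1 : ℝ} (h0 : 0 ≤ c1) (h1 : c1 ≤ P.L 1 0) (n : ℕ) :
    c1 ^ (n + 1) ≤ P.L (n + 1) 0 := by
  induction n with
  | zero => simpa using h1
  | succ n ih =>
    have e1 : P.p (LRc 0 ((n : ℤ) + 1) 0 0) = P.L (n + 1) 0 := rfl
    have e2 : P.p (LRc ((n : ℤ) + 1) ((n : ℤ) + 1 + 1) 0 0) = P.L 1 0 := by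
      rw [P.L_eq']
      congr 1
      ring
    have e3 : P.p (LRc 0 ((n : ℤ) + 1 + 1) 0 0) = P.L (n + 1 + 1) 0 := rfl
    have key := P.fkg2 (T := LRc 0 ((n : ℤ) + 1 + 1) 0 0) (IL_LRc 0 ((n : ℤ) + 1) 0 0)
      (IL_LRc ((n : ℤ) + 1) ((n : ℤ) + 1 + 1) 0 0) (a := c1 ^ (n + 1)) (b := c1) (by
        rintro S ⟨x, y, g1, g2, g3⟩ ⟨x', y', g4, g5, g6⟩
        have a1 := g1.right_mem.2
        have a2 := g4.left_mem.2
        rw [mem_rc] at a1 a2
        have hyx : y = x' := Prod.ext (by omega) (by omega)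
        subst hyx
        refine ⟨x, y', (g1.mono ?_).trans (g4.mono ?_), g2, g6⟩
        · rintro z ⟨hz1, hz2⟩
          rw [mem_rc] at hz2
          exact ⟨hz1, by rw [mem_rc]; omega⟩
        · rintro z ⟨hz1, hz2⟩
          rw [mem_rc] at hz2
          exact ⟨hz1, by rw [mem_rc]; omega⟩) (pow_nonneg h0 _) h0 (by rw [e1]; exact ih)
        (by rw [e2]; exact h1)
    rw [e3] at key
    rw [pow_succ]
    push_cast
    exact key

/-- **Step 0.** -/
theorem step0 : StepStmt := by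
  intro P p1 c1 hp1 hc1 hc N hN t ht htN
  rcases lt_or_ge t 100 with hlt | hge
  · refine (min_le_right _ _).trans ?_
    obtain ⟨n, hn⟩ := Int.eq_ofNat_of_zero_le (show 0 ≤ t - 1 by omega)
    have hle1 : c1 ≤ 1 := hc.trans (P.le_one _)
    have e : t = (n : ℤ) + 1 := by omega
    have h1 := L_seg P hc1.le hc n
    have h2 : c1 ^ 400 ≤ c1 ^ (n + 1) := pow_le_pow_of_le_one hc1.le hle1 (by omega)
    have h3 : P.L ((n : ℤ) + 1) 0 ≤ P.L t (t + t / 50) := by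
      rw [e]
      exact P.L_mono geo (by omega) le_rfl (by omega)
    linarith
  · refine (min_le_left _ _).trans ?_
    have h1 := hN t ht (by omega)
    obtain ⟨k, hk⟩ : ∃ k, k = t / 100 := ⟨_, rfl⟩
    have hk1 : 1 ≤ k := by omega
    have hn : 4 * t < ((800 : ℕ) + 1) * k := by push_cast; omega
    set b := P.L t (t + t / 50) with hb
    have h2 := P.mono (LRc 0 t 0 (4 * t)) (fun S => ∃ i : ℕ, i ≤ 800 ∧
      (LRc 0 t (i * k) (i * k + (t + 2 * k)) S ∨ BTc 0 t ((i + 1) * k) ((i + 1) * k + t) S))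
      (fun S hS => dich hk1 (by omega) hn hS)
    have h3 := ex_le P (fun i S => LRc 0 t (i * k) (i * k + (t + 2 * k)) S ∨
      BTc 0 t ((i + 1) * k) ((i + 1) * k + t) S) (a := 2 * b) 800 (by
        intro i _
        refine (P.or_le _ _).trans ?_
        have a1 : P.p (LRc 0 t (i * k) (i * k + (t + 2 * k))) ≤ b := by
          rw [P.L_eq']
          exact P.L_mono geo (by omega) (by omega) (by omega)
        have a2 : P.p (BTc 0 t ((i + 1) * k) ((i + 1) * k + t)) ≤ b := by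
          rw [P.B_eq']
          exact P.L_mono geo (by omega) (by omega) (by omega)
        have a3 : P.p (fun S => LRc 0 t (i * k) (i * k + (t + 2 * k)) S) =
          P.p (LRc 0 t (i * k) (i * k + (t + 2 * k))) := rfl
        have a4 : P.p (fun S => BTc 0 t ((i + 1) * k) ((i + 1) * k + t) S) =
          P.p (BTc 0 t ((i + 1) * k) ((i + 1) * k + t)) := rfl
        rw [a3, a4]
        linarith)
    have h4 : P.p (LRc 0 t 0 (4 * t)) = P.L t (4 * t) := rfl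
    rw [h4] at h2
    have hb0 : 0 ≤ b := P.L_nonneg _ _
    have h5 := h2.trans h3
    push_cast at h5
    linarith

end Vale.Agent.P159.RSW
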