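import Vale.Agent.P159.RSW.Spec3
import Vale.Agent.P159.RSW.Fin
import Vale.Agent.P159.RSW.Step0

/-!
# RSW, last step, version 3
-/

namespace Vale.Agent.P159.RSW

namespace H460

open Vale.Agent.P145.FB

/-- Near-squares and long crossings at small scales from one edge. -/
theorem small (P : PP) {c1 : ℝ} (h0 : 0 < c1) (h1 : c1 ≤ P.L 1 0) {w : ℤ} (hw : 1 ≤ w)
    (hw2 : w ≤ 100) {h : ℤ} (hh : 0 ≤ h) : c1 ^ 100 ≤ P.L w h := by
  obtain ⟨n, hn⟩ := Int.eq_ofNat_of_zero_le (show 0 ≤ w - 1 by omega)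
  have hle1 : c1 ≤ 1 := h1.trans (P.le_one _)
  have e : w = (n : ℤ) + 1 := by omega
  have h2 := L_seg P h0.le h1 n
  have h3 : c1 ^ 100 ≤ c1 ^ (n + 1) := pow_le_pow_of_le_one h0.le hle1 (by omega)
  have h4 : P.L ((n : ℤ) + 1) 0 ≤ P.L w h := by
    rw [e]
    exact P.L_mono geo (by omega) le_rfl hh
  linarith

/-- The constant at the last good scale, ratio `1 : 1` and `4 : 1`. -/
noncomputable def m0 (c1 e : ℝ) : ℝ := min (c1 ^ 100) e

/-- The long crossing at the last good scale. -/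
noncomputable def m1 (c1 e : ℝ) : ℝ := min (c1 ^ 100) (e * (e * e) ^ 19)

/-- The constant for `n < 5000 r`. -/
noncomputable def m2 (c1 e : ℝ) : ℝ := m1 c1 e * (m0 c1 e * m1 c1 e) ^ 10000

/-- The constant of the ratio 6/5 for `5000 r ≤ n`. -/
noncomputable def m3 (c0 c1 e : ℝ) : ℝ := (c0 / 5000) ^ 2 * m1 c1 e ^ 4

/-- The constant of the ratio 4 for `5000 r ≤ n`. -/
noncomputable def m4 (c0 c1 e : ℝ) : ℝ := m3 c0 c1 e * (c0 * m3 c0 c1 e) ^ 19

/-- The constant for the long crossings. -/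
noncomputable def m5 (c0 c1 e : ℝ) : ℝ := min (c1 ^ 100) (min (m2 c1 e) (m4 c0 c1 e))

theorem m0_pos {c1 e : ℝ} (h1 : 0 < c1) (he : 0 < e) : 0 < m0 c1 e := by
  unfold m0; positivity

theorem m1_pos {c1 e : ℝ} (h1 : 0 < c1) (he : 0 < e) : 0 < m1 c1 e := by
  unfold m1; positivity

theorem m3_pos {c0 c1 e : ℝ} (h0 : 0 < c0) (h1 : 0 < c1) (he : 0 < e) : 0 < m3 c0 c1 e := by
  have := m1_pos h1 he
  unfold m3; positivity

theorem m5_pos {c0 c1 e : ℝ} (h0 : 0 < c0) (h1 : 0 < c1) (he : 0 < e) : 0 < m5 c0 c1 e := by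
  have := m0_pos h1 he
  have := m1_pos h1 he
  have := m3_pos h0 h1 he
  unfold m5 m2 m4
  positivity

/-- The last step, version 3. -/
theorem fin3 : FinStmt3 := by
  intro hArm h4 _ c0 c1 h0 h1
  obtain ⟨e, he, hE⟩ := hArm c0 c1 h0 h1
  have hm := m5_pos h0 h1 he
  have hm1 := m1_pos h1 he
  have hm0 := m0_pos h1 he
  have hm3 := m3_pos h0 h1 he
  refine ⟨min 1 (m5 c0 c1 e) ^ 4, by positivity, fun P N hc1 hN hsq => ?_⟩
  have key : m5 c0 c1 e ≤ P.L (4 * N) N := by
    rcases lt_or_ge N 20 with hlt | hge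
    · exact (min_le_left _ _).trans (small P h1 hc1 (by omega) (by omega) (by omega))
    obtain ⟨r, hr, hrn, hlast, hall⟩ := exists_last (fun t => e < Eps P t) N hge
    have hL : m1 c1 e ≤ P.L (4 * r) r := by
      rcases hlast with h | h
      · subst h
        exact (min_le_left _ _).trans (small P h1 hc1 (by omega) (by omega) (by omega))
      · refine (min_le_right _ _).trans (l5core P e e r he.le he.le hr ?_ h.le)
        refine h.le.trans ?_
        exact P.L_mono geo (by omega) (by omega) (by omega)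
    have hS : m0 c1 e ≤ P.L r (r + r / 50) := by
      rcases hlast with h | h
      · subst h
        exact (min_le_left _ _).trans (small P h1 hc1 (by omega) (by omega) (by omega))
      · refine (min_le_right _ _).trans (h.le.trans ?_)
        exact P.L_mono geo (by omega) (by omega) (by omega)
    rcases lt_or_ge N (5000 * r) with hlt | hge2
    · exact (min_le_right _ _).trans ((min_le_left _ _).trans
        (L_near P hm0 hm1 hr hrn hlt hS hL))
    · have hA := hE P r (N - 4 * r) hc1 (by omega) (by omega)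
        (fun s hs1 hs2 => hsq s (by omega) (by omega))
        (fun s hs1 hs2 => not_lt.1 (hall s hs1 (by omega)))
      have hC : m1 c1 e ^ 4 ≤ P.p (Ann 0 0 r) := P.Ann_ge 0 0 hm1.le hL
      have h6 := h4 P (c0 / 5000) (m1 c1 e ^ 4) (N - 4 * r) r r (by positivity) (by positivity)
        (by omega) le_rfl (by omega) (by omega) hA hC
      have h7 : m3 c0 c1 e ≤ Eps P N := by
        refine h6.trans (P.L_mono geo (by omega) (by omega) (by omega))
      exact (min_le_right _ _).trans ((min_le_right _ _).trans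
        (l5core P c0 (m3 c0 c1 e) N h0.le hm3.le hge (hsq N (by omega) le_rfl) h7))
  have hk : min 1 (m5 c0 c1 e) ≤ P.L (4 * N) N := (min_le_right _ _).trans key
  have hk0 : 0 ≤ min 1 (m5 c0 c1 e) := by positivity
  refine ⟨le_trans ?_ hk, fun p q => P.Ann_ge p q hk0 hk⟩
  calc min 1 (m5 c0 c1 e) ^ 4 ≤ min 1 (m5 c0 c1 e) ^ 1 :=
        pow_le_pow_of_le_one hk0 (min_le_left _ _) (by norm_num)
    _ = min 1 (m5 c0 c1 e) := pow_one _

end H460

end Vale.Agent.P159.RSW
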