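import Vale.Agent.P159.RSW.L1

/-!
# RSW, row L4: two opposite arms of a gap and a circuit around it
-/

namespace Vale.Agent.P159.RSW

open Vale.Agent.P145.FB Vale.Agent.P153 Vale.Agent.P153.Topo Relation

theorem Ann_shift (S : Set (ℤ × ℤ)) (p q t : ℤ) :
    Ann 0 0 t {z | (z.1 + 2 * p, z.2 + 2 * q) ∈ S} ↔ Ann p q t S := by
  unfold Ann
  rw [LRc_shift, LRc_shift, BTc_shift, BTc_shift]
  have e1 : 0 - 2 * t + p = p - 2 * t := by ring
  have e2 : 0 + 2 * t + p = p + 2 * t := by ring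
  have e3 : 0 + t + q = q + t := by ring
  have e4 : 0 + 2 * t + q = q + 2 * t := by ring
  have e5 : 0 - 2 * t + q = q - 2 * t := by ring
  have e6 : 0 - t + q = q - t := by ring
  have e7 : 0 - t + p = p - t := by ring
  have e8 : 0 + t + p = p + t := by ring
  rw [e1, e2, e3, e4, e5, e6, e7, e8]

theorem p_Ann_shift (P : PP) (p q t : ℤ) : P.p (Ann p q t) = P.p (Ann 0 0 t) := by
  rw [← P.shift p q _ (IL_Ann 0 0 t)]
  congr 1
  funext S
  exact propext (Ann_shift S p q t).symm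

theorem det4 {B r t x y : ℤ} (_hr : 0 ≤ r) (hrt : r ≤ t) (ht : 0 < t) (hB : 40 * t ≤ B)
    (hx : 0 ≤ x) (hxr : x + r ≤ B) (hy : 0 ≤ y) (hyr : 10 * (y + r) ≤ B) {S : Set (ℤ × ℤ)}
    (h1 : NArm 0 B 0 B x y r S) (h2 : SArm 0 (0 + B) (y + y + r - B) (y + y + r) (0 + x) y r S)
    (h3 : Ann x y t S) : BTc (-(2 * t)) (B + 2 * t) (2 * y + r - B) B S := by
  obtain ⟨u1, v1, k1, k1g, k1t⟩ := h1
  obtain ⟨u2, v2, k2, k2g, k2t⟩ := h2
  obtain ⟨o, _, hsep⟩ := h3.cluster ht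
  have g1 : u1 ∈ rc x (x + r) y (y + r) := k1g
  have g2 : u2 ∈ rc (0 + x) (0 + x + r) y (y + r) := k2g
  rw [mem_rc] at g1 g2
  obtain ⟨w1, hw1, hw1'⟩ := hsep _ u1 v1 k1.cluster.conn (by rw [mem_rc]; omega)
    (by right; right; right; omega)
  obtain ⟨w2, hw2, hw2'⟩ := hsep _ u2 v2 k2.cluster.conn (by rw [mem_rc]; omega)
    (by right; right; left; omega)
  have s1 : rc 0 B 0 B ⊆ rc (-(2 * t)) (B + 2 * t) (2 * y + r - B) B :=
    rc_mono (by omega) (by omega) (by omega) le_rfl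
  have s2 : rc 0 (0 + B) (y + y + r - B) (y + y + r) ⊆
      rc (-(2 * t)) (B + 2 * t) (2 * y + r - B) B :=
    rc_mono (by omega) (by omega) (by omega) (by omega)
  have s3 : annR x y t ⊆ rc (-(2 * t)) (B + 2 * t) (2 * y + r - B) B :=
    (annR_sub x y t).trans (rc_mono (by omega) (by omega) (by omega) (by omega))
  have m1 : NC (S ∩ rc (-(2 * t)) (B + 2 * t) (2 * y + r - B) B) u1 o :=
    NC.join s1 s3 hw1 hw1'
  have m2 : NC (S ∩ rc (-(2 * t)) (B + 2 * t) (2 * y + r - B) B) u2 o :=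
    NC.join s2 s3 hw2 hw2'
  have m3 := k1.mono (Set.inter_subset_inter_right S s1)
  have m4 := k2.mono (Set.inter_subset_inter_right S s2)
  exact ⟨v2, v1, ((m4.symm.trans m2).trans m1.symm).trans m3, by rw [k2t]; ring, k1t⟩

/-- **row L4** -/
theorem l4 : L4Stmt := by
  intro P c cA B r t hc hcA hr hrt ht hB hARM hcA'
  obtain ⟨x, y, hx, hxr, hy, hyr, hp⟩ := hARM
  have e1 : c ≤ P.p (SArm 0 (0 + B) (y + y + r - B) (y + y + r) (0 + x) y r) := by
    rw [p_down P B x y r 0 y]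
    exact hp
  have e2 : cA ≤ P.p (Ann x y t) := by
    rw [p_Ann_shift]
    exact hcA'
  have e3 : c * c * cA ≤ P.p (BTc (-(2 * t)) (B + 2 * t) (2 * y + r - B) B) :=
    P.fkg3 (IL_NArm 0 B 0 B x y r) (IL_SArm 0 (0 + B) (y + y + r - B) (y + y + r) (0 + x) y r)
      (IL_Ann x y t) (fun S h1 h2 h3 => det4 hr hrt ht hB hx hxr hy hyr h1 h2 h3) hc hc hcA hp e1 e2
  rw [P.B_eq'] at e3
  calc c ^ 2 * cA = c * c * cA := by ring
    _ ≤ P.L (B - (2 * y + r - B)) (B + 2 * t - -(2 * t)) := e3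
    _ ≤ P.L (B + B / 2) (B + 4 * t) := P.L_mono geo (by omega) (by omega) (by omega)

end Vale.Agent.P159.RSW
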