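import Vale.Agent.P159.RSW.L2g
import Vale.Agent.P159.RSW.Fin3
import Vale.Agent.P159.RSW.L4
import Vale.Agent.P159.TM.H121.Out

/-!
# RSW with input at the top scales only (helper885's downward induction on the gap size)
-/

namespace Vale.Agent.P159.RSW

namespace H935

open Vale.Agent.P145.FB Relation

/-- Step 0 at one scale. -/
theorem step1 (P : PP) (p1 c1 : ℝ) (hc1 : 0 < c1) (hc : c1 ≤ P.L 1 0) (t : ℤ) (ht : 1 ≤ t)
    (hN : p1 ≤ P.L t (4 * t)) : min (p1 / 4000) (c1 ^ 400) ≤ P.L t (t + t / 50) := by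
  rcases lt_or_ge t 100 with hlt | hge
  · refine (min_le_right _ _).trans ?_
    obtain ⟨n, hn⟩ := Int.eq_ofNat_of_zero_le (show 0 ≤ t - 1 by omega)
    have hle1 : c1 ≤ 1 := hc.trans (P.le_one _)
    have e : t = (n : ℤ) + 1 := by omega
    have h1 := L_seg P hc1.le hc n
    have h2 : c1 ^ 400 ≤ c1 ^ (n + 1) := pow_le_pow_of_le_one hc1.le hle1 (by omega)
    have h3 : P.L ((n : ℤ) + 1) 0 ≤ P.L t (t + t / 50) := by
      rw [e]
      exact P.L_mono geo (by omega) le_rfl (by omega)
    linarith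
  · refine (min_le_left _ _).trans ?_
    obtain ⟨k, hk⟩ : ∃ k, k = t / 100 := ⟨_, rfl⟩
    have hk1 : 1 ≤ k := by omega
    have hn : 4 * t < ((800 : ℕ) + 1) * k := by push_cast; omega
    set b := P.L t (t + t / 50) with hb
    have h2 := P.mono (LRc 0 t 0 (4 * t)) (fun S => ∃ i : ℕ, i ≤ 800 ∧
      (LRc 0 t (i * k) (i * k + (t + 2 * k)) S ∨ BTc 0 t ((i + 1) * k) ((i + 1) * k + t) S))
      (fun S hS => dich hk1 (by omega) hn hS)
    have h3 := ex_le P (fun i S => LRc 0 t (i * k) (i * k + (t + 2 * k)) S ∨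
      BTc 0 t ((i + 1) * k) ((i + 1) * k + t) S) (a := 2 * b) 800 (by
        intro i _
        refine (P.or_le _ _).trans ?_
        have a1 : P.p (LRc 0 t (i * k) (i * k + (t + 2 * k))) ≤ b := by
          rw [P.L_eq']
          exact P.L_mono geo (by omega) (by omega) (by omega)
        have a2 : P.p (BTc 0 t ((i + 1) * k) ((i + 1) * k + t)) ≤ b := by
          rw [P.B_eq']
          exact P.L_mono geo (by omega) (by omega) (by omega)
        have a3 : P.p (fun S => LRc 0 t (i * k) (i * k + (t + 2 * k)) S) =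
          P.p (LRc 0 t (i * k) (i * k + (t + 2 * k))) := rfl
        have a4 : P.p (fun S => BTc 0 t ((i + 1) * k) ((i + 1) * k + t) S) =
          P.p (BTc 0 t ((i + 1) * k) ((i + 1) * k + t)) := rfl
        rw [a3, a4]
        linarith)
    have h4 : P.p (LRc 0 t 0 (4 * t)) = P.L t (4 * t) := rfl
    rw [h4] at h2
    have hb0 : 0 ≤ b := P.L_nonneg _ _
    have h5 := h2.trans h3
    push_cast at h5
    linarith

/-- The arm of a gap gives an easy crossing at the scale of the gap. -/
theorem easy_of_arm (P : PP) (c : ℝ) (B r : ℤ) (hr : 1 ≤ r) (hB : 20 * r ≤ B)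
    (h : ARM P c B r) : c / 4 ≤ P.L r (4 * r) := by
  obtain ⟨x, y, _, _, _, hy, hp⟩ := h
  refine TM.H121.easy_of_out P hr (hp.trans ?_)
  rw [← p_NArm_shift P 0 B 0 B x y r (-x) (-y)]
  refine P.mono _ _ ?_
  rintro S ⟨u, v, huv, hu, hv⟩
  have hu' : u ∈ rc (x + -x) (x + -x + r) (y + -y) (y + -y + r) := hu
  rw [mem_rc] at hu'
  refine ⟨u, v, huv.mono Set.inter_subset_left, ?_, ?_⟩
  · rw [mem_rc]; omega
  · unfold TM.H121.nrm
    omega

/-- **The arm at the top scale**, with input at the top scales only. -/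
theorem armTop : ArmTop := by
  intro c0 c1 h0 h1
  obtain ⟨p, hp⟩ : ∃ p : ℝ, p = min (min (c0 / 5000 / 4 / 4000) (c1 ^ 400)) 1 := ⟨_, rfl⟩
  have hp0 : 0 < p := by
    rw [hp]; exact lt_min (lt_min (by positivity) (by positivity)) one_pos
  have hp1 : p ≤ 1 := by rw [hp]; exact min_le_right _ _
  have hpm : p ≤ min (c0 / 5000 / 4 / 4000) (c1 ^ 400) := by rw [hp]; exact min_le_left _ _
  have hpc : p ≤ c0 := by
    have := hpm.trans (min_le_left _ _)
    linarith
  refine ⟨p * (p / 5000) ^ 4 / 4000, by positivity, ?_⟩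
  intro P r N hc1 hr hrN hsq heps
  have heps' : ∀ s, r < s → s ≤ N → 4000 * Eps P s ≤ p * (p / 5000) ^ 4 := by
    intro s hs1 hs2
    have := heps s hs1 hs2
    linarith
  have htop : c0 ≤ P.L (N - N / 50) N := by
    have h4 := hsq (N - N / 50) (by omega) (by omega)
    exact h4.trans (P.L_mono geo (by omega) le_rfl (by omega))
  have key : ∀ m : ℕ, ∀ s : ℤ, N - s ≤ m → r < s → s ≤ N → p ≤ P.L s (s + s / 50) := by
    intro m
    induction m with
    | zero =>
      intro s h2 h3 h4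
      push_cast at h2
      exact hpc.trans (hsq s (by omega) h4)
    | succ m ih =>
      intro s h2 h3 h4
      rcases le_or_gt N (5000 * s) with h5 | h5
      · exact hpc.trans (hsq s h5 h4)
      · have hA : ARM P (c0 / 5000) N s := by
          refine armTopStep P c0 p s N h0 hp0 hp1 hpc (by omega) (by omega) htop ?_ ?_
          · intro t ht1 ht2
            exact ih t (by push_cast at h2; omega) (by omega) ht2
          · intro t ht1 ht2
            exact heps' t (by omega) ht2
        have hE := easy_of_arm P _ N s (by omega) (by omega) hA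
        exact hpm.trans (step1 P _ c1 h1 hc1 s (by omega) hE)
  exact armTopStep P c0 p r N h0 hp0 hp1 hpc hr hrN htop
    (fun s hs1 hs2 => key (N - s).toNat s (by omega) hs1 hs2) heps'

/-- **RSW**: FKG, symmetries, one open edge and near-squares at the top scales. -/
theorem rswStmt3 : RSWStmt3 := H460.fin3 armTop l4 l5

/-- The form consumed by the model side: arms between neighbouring boxes at the top scales. -/
theorem rsw_top (p1 c1 : ℝ) (h1 : 0 < p1) (hc1 : 0 < c1) : ∃ c : ℝ, 0 < c ∧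
    ∀ (P : PP) (N : ℤ), c1 ≤ P.L 1 0 → 1 ≤ N →
      (∀ t, 1 ≤ t → N ≤ 10000 * t → t ≤ N → p1 ≤ P.p (TM.H121.Tr t)) →
      c ≤ P.L (4 * N) N ∧ ∀ p q : ℤ, c ≤ P.p (Ann p q N) := by
  obtain ⟨c, hc, H⟩ := rswStmt3 (min (p1 / 4 / 4000) (c1 ^ 400)) c1
    (lt_min (by positivity) (by positivity)) hc1
  refine ⟨c, hc, fun P N hL hN hT => H P N hL hN (fun s h2 h3 => ?_)⟩
  exact step1 P (p1 / 4) c1 hc1 hL s (by omega)
    (TM.H121.easy_of_tr P (by omega) (hT s (by omega) h2 h3))

end H935

end Vale.Agent.P159.RSW
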