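import Vale.Agent.P159.RSW.Spec2

/-!
# RSW: frozen statements, version 3 (input in a bounded window at the top only)

The near-squares are assumed at the scales `N / 10000 ≤ s ≤ N` only. Below this window they follow
from the arms of the top scale.
-/

namespace Vale.Agent.P159.RSW

open Vale.Agent.P145.FB

/-- The arm at the top scale, with a constant which depends on the near-squares at the top only. -/
def ArmTop : Prop := ∀ c0 c1 : ℝ, 0 < c0 → 0 < c1 → ∃ e : ℝ, 0 < e ∧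
  ∀ (P : PP) (r N : ℤ), c1 ≤ P.L 1 0 → 1 ≤ r → 2000 * r ≤ N →
  (∀ s, N ≤ 5000 * s → s ≤ N → c0 ≤ P.L s (s + s / 50)) →
  (∀ s, r < s → s ≤ N → Eps P s ≤ e) → ARM P (c0 / 5000) N r

/-- **RSW**, version 3: near-squares of the sides `N / 10000 ≤ s ≤ N`. -/
def RSWStmt3 : Prop := ∀ c0 c1 : ℝ, 0 < c0 → 0 < c1 → ∃ c : ℝ, 0 < c ∧ ∀ (P : PP) (N : ℤ),
  c1 ≤ P.L 1 0 → 1 ≤ N → (∀ s, N ≤ 10000 * s → s ≤ N → c0 ≤ P.L s (s + s / 50)) →
  c ≤ P.L (4 * N) N ∧ ∀ p q : ℤ, c ≤ P.p (Ann p q N)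

/-- The last step, version 3. -/
def FinStmt3 : Prop := ArmTop → L4Stmt → L5Stmt2 → RSWStmt3

end Vale.Agent.P159.RSW
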