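import Vale.Agent.P159.RSW.L2g
import Vale.Agent.P159.RSW.Spec3
import Vale.Agent.P159.TM.H121.Star

/-!
# RSW, row `ArmTop`: the input is needed at the top scales only

Downward induction on the scale: an arm of a gap of size `s` at the top scale `N` has the constant
of the top scale (`armTopStep`), and it gives the near-square crossing at the scale `s`
(`sq_of_arm`), with a constant which does not depend on `s`.
-/

namespace Vale.Agent.P159.RSW

namespace H885

open Vale.Agent.P145.FB Vale.Agent.P159.TM.H121

/-- Near-squares at all scales above `r` from near-squares at the top scales and from the absence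
of long crossings. -/
theorem sqDown (P : PP) (c0 c1 p : ℝ) (r N : ℤ) (hc0 : 0 < c0) (hc1 : 0 < c1)
    (hp0 : 0 < p) (hp1 : p ≤ 1) (hpc : p ≤ c0) (hpm : p ≤ min (c0 / 5000 / 16000) (c1 ^ 400))
    (hseg : c1 ≤ P.L 1 0) (hr : 1 ≤ r)
    (htop : ∀ s, N ≤ 5000 * s → s ≤ N → c0 ≤ P.L s (s + s / 50))
    (heps : ∀ s, r < s → s ≤ N → 4000 * Eps P s ≤ p * (p / 5000) ^ 4) :
    ∀ s, r ≤ s → s ≤ N → p ≤ P.L s (s + s / 50) := by
  have key : ∀ n : ℕ, ∀ s : ℤ, N - s ≤ n → r ≤ s → s ≤ N → p ≤ P.L s (s + s / 50) := by
    intro n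
    induction n with
    | zero =>
      intro s h1 h2 h3
      refine hpc.trans (htop s ?_ h3)
      push_cast at h1
      omega
    | succ n ih =>
      intro s h1 h2 h3
      rcases le_or_gt N (5000 * s) with h4 | h4
      · exact hpc.trans (htop s h4 h3)
      · have hW : c0 ≤ P.L (N - N / 50) N := by
          have h5 := htop (N - N / 50) (by omega) (by omega)
          exact h5.trans (P.L_mono geo (by omega) le_rfl (by omega))
        have hA : ARM P (c0 / 5000) N (s + s / 100) := by
          refine H935.armTopStep P c0 p (s + s / 100) N hc0 hp0 hp1 hpc (by omega) (by omega) hW ?_ ?_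
          · intro s' h5 h6
            exact ih s' (by push_cast at h1; omega) (by omega) h6
          · intro s' h5 h6
            exact heps s' (by omega) h6
        exact hpm.trans (sq_of_arm P hc1 hseg (by omega) (by omega) hA)
  intro s h1 h2
  exact key (N - s).toNat s (by omega) h1 h2



/-- **The row `ArmTop`.** -/
theorem armTop : ArmTop := by
  intro c0 c1 h0 h1
  obtain ⟨p, hp⟩ : ∃ p : ℝ, p = min (min (c0 / 5000 / 16000) (c1 ^ 400)) (min 1 c0) := ⟨_, rfl⟩
  have hp0 : 0 < p := by rw [hp]; positivity
  have hpm : p ≤ min (c0 / 5000 / 16000) (c1 ^ 400) := by rw [hp]; exact min_le_left _ _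
  have hp1 : p ≤ 1 := by rw [hp]; exact (min_le_right _ _).trans (min_le_left _ _)
  have hpc : p ≤ c0 := by rw [hp]; exact (min_le_right _ _).trans (min_le_right _ _)
  refine ⟨p * (p / 5000) ^ 4 / 4000, by positivity, ?_⟩
  intro P r N hseg hr hN htop heps
  have heps' : ∀ s, r < s → s ≤ N → 4000 * Eps P s ≤ p * (p / 5000) ^ 4 := by
    intro s h2 h3
    have := heps s h2 h3
    linarith
  have hW : c0 ≤ P.L (N - N / 50) N := by
    have h5 := htop (N - N / 50) (by omega) (by omega)
    exact h5.trans (P.L_mono geo (by omega) le_rfl (by omega))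
  refine H935.armTopStep P c0 p r N h0 hp0 hp1 hpc hr hN hW ?_ heps'
  intro s h2 h3
  exact sqDown P c0 c1 p r N h0 h1 hp0 hp1 hpc hpm hseg hr htop heps' s h2.le h3

end H885

end Vale.Agent.P159.RSW
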