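import Vale.Agent.P159.RSW.Fin
import Vale.Agent.P159.RSW.ArmAll
import Vale.Agent.P159.RSW.L4
import Vale.Agent.P159.RSW.Step0
import Vale.Agent.P159.TM.H121.Out

/-!
# RSW from arms between neighbouring boxes and one open edge
-/

namespace Vale.Agent.P159.RSW

open Vale.Agent.P145.FB

/-- **RSW**, near-squares of all sides. -/
theorem rsw2 : RSWStmt2 := rsw_of H935.armAll2 l4

/-- **RSW from easy crossings**: for a percolation with positive association and the symmetries of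
the square lattice, lower bounds for one edge and for the crossings of the rectangles
`s × 4s` in the short direction at all scales `1 ≤ s ≤ N` give circuits in the annuli of all
radii `n` with `1 ≤ n` and `n + n / 100 ≤ N`. -/
theorem rsw_easy (p1 c1 : ℝ) (h1 : 0 < p1) (hc1 : 0 < c1) : ∃ c : ℝ, 0 < c ∧
    ∀ (P : PP) (N : ℤ), c1 ≤ P.L 1 0 → (∀ s, 1 ≤ s → s ≤ N → p1 ≤ P.L s (4 * s)) →
      ∀ n, 1 ≤ n → n + n / 100 ≤ N → c ≤ P.L (4 * n) n ∧ ∀ p q : ℤ, c ≤ P.p (Ann p q n) := by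
  have hm : 0 < min (p1 / 4000) (c1 ^ 400) := lt_min (by positivity) (by positivity)
  have h80 : 0 < c1 ^ 80 := by positivity
  obtain ⟨c, hc, H⟩ := rsw2 (min (p1 / 4000) (c1 ^ 400)) (c1 ^ 80) hm h80
  refine ⟨min c ((c1 ^ 80) ^ 4), lt_min hc (by positivity), ?_⟩
  intro P N hL hN n hn hnN
  have hc1' : c1 ≤ 1 := hL.trans (P.le_one _)
  have hseg : ∀ m : ℤ, 1 ≤ m → m ≤ 80 → ∀ h : ℤ, 0 ≤ h → c1 ^ 80 ≤ P.L m h := by
    intro m hm1 hm2 h hh
    obtain ⟨j, hj⟩ := Int.eq_ofNat_of_zero_le (show 0 ≤ m - 1 by omega)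
    have e : m = (j : ℤ) + 1 := by omega
    have g1 := L_seg P hc1.le hL j
    have g2 : c1 ^ 80 ≤ c1 ^ (j + 1) := pow_le_pow_of_le_one hc1.le hc1' (by omega)
    have g3 : P.L ((j : ℤ) + 1) 0 ≤ P.L m h := by
      rw [e]
      exact P.L_mono geo (by omega) le_rfl hh
    linarith
  rcases lt_or_ge n 20 with hlt | hge
  · have g1 := hseg (4 * n) (by omega) (by omega) n (by omega)
    have g2 : (c1 ^ 80) ^ 4 ≤ c1 ^ 80 := by
      calc (c1 ^ 80) ^ 4 ≤ (c1 ^ 80) ^ 1 :=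
            pow_le_pow_of_le_one h80.le (pow_le_one₀ hc1.le hc1') (by norm_num)
        _ = c1 ^ 80 := pow_one _
    refine ⟨(min_le_right _ _).trans (g2.trans g1), fun p q => ?_⟩
    exact (min_le_right _ _).trans (P.Ann_ge p q h80.le g1)
  · have hS : ∀ s, 1 ≤ s → s ≤ n → min (p1 / 4000) (c1 ^ 400) ≤ P.L s (s + s / 50) :=
      fun s hs hsn => step0 P p1 c1 h1 hc1 hL N hN s hs (by omega)
    obtain ⟨g1, g2⟩ := H P n hS (hseg 80 (by norm_num) (by norm_num) 20 (by norm_num)) n hge le_rfl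
    exact ⟨(min_le_left _ _).trans g1, fun p q => (min_le_left _ _).trans (g2 p q)⟩

/-- **RSW from arms**: `TM.H121.Tr t` = the box of half side `t` at `0` is joined to its translate
by `(3t, 0)`. -/
theorem rsw_arm (p1 c1 : ℝ) (h1 : 0 < p1) (hc1 : 0 < c1) : ∃ c : ℝ, 0 < c ∧
    ∀ (P : PP) (N : ℤ), c1 ≤ P.L 1 0 → (∀ t, 1 ≤ t → t ≤ N → p1 ≤ P.p (TM.H121.Tr t)) →
      ∀ n, 1 ≤ n → n + n / 100 ≤ N → c ≤ P.L (4 * n) n ∧ ∀ p q : ℤ, c ≤ P.p (Ann p q n) := by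
  obtain ⟨c, hc, H⟩ := rsw_easy (p1 / 4) c1 (by positivity) hc1
  exact ⟨c, hc, fun P N hL hN n hn hnN => H P N hL
    (fun s hs hsN => TM.H121.easy_of_tr P hs (hN s hs hsN)) n hn hnN⟩

end Vale.Agent.P159.RSW
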