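import Vale.Agent.P159.RSW.ArmAll
import Vale.Agent.P159.RSW.L4

/-!
# RSW, rows L5 and Fin (v2), second source
-/

namespace Vale.Agent.P159.RSW

namespace H935

open Vale.Agent.P145.FB Vale.Agent.P153 Vale.Agent.P153.Topo Relation

/-- Two crossings of rectangles of height `h` joined by a vertical crossing of the overlap. -/
theorem chainO (P : PP) {c0 a b : ℝ} {w w' h o : ℤ} (hh : 0 ≤ h) (ho : 0 ≤ o) (hw : o ≤ w)
    (hw' : o ≤ w') (h0 : 0 ≤ c0) (ha : 0 ≤ a) (hb : 0 ≤ b) (hsq : c0 ≤ P.L h o) (hwa : a ≤ P.L w h)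
    (hwb : b ≤ P.L w' h) : a * c0 * b ≤ P.L (w + w' - o) h := by
  refine P.fkg3 (IL_LRc 0 w 0 h) (IL_BTc (w - o) w 0 h) (IL_LRc (w - o) (w + w' - o) 0 h)
    (fun S h1 h2 h3 => geo.chain 0 (w - o) w (w + w' - o) 0 h S (by omega) (by omega) (by omega)
      hh h1 h2 h3) ha h0 hb ?_ ?_ ?_
  · rw [P.L_eq']; simpa using hwa
  · rw [P.B_eq']; simpa using hsq
  · rw [P.L_eq']
    have e : w + w' - o - (w - o) = w' := by ring
    rw [e]; simpa using hwb

theorem iterO (P : PP) {c0 a : ℝ} {w h o : ℤ} (hh : 0 ≤ h) (ho : 0 ≤ o) (hw : o ≤ w)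
    (h0 : 0 ≤ c0) (ha : 0 ≤ a) (hsq : c0 ≤ P.L h o) (hwa : a ≤ P.L w h) (j : ℕ) :
    a * (c0 * a) ^ j ≤ P.L (w + j * (w - o)) h := by
  induction j with
  | zero => simpa using hwa
  | succ j ih =>
    have h1 : 0 ≤ a * (c0 * a) ^ j := mul_nonneg ha (pow_nonneg (mul_nonneg h0 ha) _)
    have h2 : 0 ≤ (j : ℤ) * (w - o) := mul_nonneg (Int.natCast_nonneg _) (by omega)
    have := chainO P hh ho (w := w + j * (w - o)) (w' := w) (by omega) hw h0 h1 ha hsq ih hwa
    have e : w + (j : ℤ) * (w - o) + w - o = w + ((j + 1 : ℕ) : ℤ) * (w - o) := by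
      push_cast; ring
    rw [e] at this
    calc a * (c0 * a) ^ (j + 1) = a * (c0 * a) ^ j * c0 * a := by ring
      _ ≤ _ := this

theorem l5Stmt2 : L5Stmt2 := by
  intro P c0 a r h0 ha hr hsq hep
  have h1 := iterO P (w := r + r / 5) (h := r) (o := r + r / 50) (by omega) (by omega) (by omega)
    h0 ha hsq hep 19
  refine h1.trans (P.L_mono geo (by omega) ?_ le_rfl)
  push_cast
  omega

theorem exists_last (p : ℤ → Prop) (n : ℕ) (hn : 20 ≤ n) :
    ∃ r : ℤ, 20 ≤ r ∧ r ≤ n ∧ (r = 20 ∨ p r) ∧ ∀ s : ℤ, r < s → s ≤ n → ¬ p s := by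
  induction n, hn using Nat.le_induction with
  | base => exact ⟨20, le_rfl, by norm_num, Or.inl rfl, fun s h1 h2 => by push_cast at h2; omega⟩
  | succ n hn ih =>
    by_cases h : p (n + 1 : ℕ)
    · exact ⟨(n + 1 : ℕ), by push_cast; omega, le_rfl, Or.inr h, fun s h1 h2 => by omega⟩
    · obtain ⟨r, h1, h2, h3, h4⟩ := ih
      refine ⟨r, h1, by push_cast; omega, h3, fun s h5 h6 => ?_⟩
      rcases eq_or_lt_of_le h6 with h7 | h7
      · rw [h7]; exact h
      · exact h4 s h5 (by push_cast at h7; omega)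

theorem finStmt2 : FinStmt2 := by
  intro hArm h4 h5 c0 c1 h0 h1
  obtain ⟨e0, he0⟩ : ∃ e0 : ℝ, e0 = (c0 / 5000) ^ 6 := ⟨_, rfl⟩
  have he0p : 0 < e0 := by rw [he0]; positivity
  obtain ⟨a4, ha4⟩ : ∃ a4 : ℝ, a4 = min c1 (e0 * (c0 * e0) ^ 19) := ⟨_, rfl⟩
  have ha4p : 0 < a4 := by rw [ha4]; exact lt_min h1 (by positivity)
  obtain ⟨a', ha'⟩ : ∃ a' : ℝ, a' = (c0 / 5000) ^ 2 * a4 ^ 4 := ⟨_, rfl⟩
  have ha'p : 0 < a' := by rw [ha']; positivity
  obtain ⟨cL, hcL⟩ : ∃ cL : ℝ, cL = min (a4 * (c0 * a4) ^ 10000) (a' * (c0 * a') ^ 19) := ⟨_, rfl⟩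
  have hcLp : 0 < cL := by rw [hcL]; exact lt_min (by positivity) (by positivity)
  refine ⟨min cL (cL ^ 4), lt_min hcLp (by positivity), ?_⟩
  intro P N hsq hbase n hn hnN
  have main : cL ≤ P.L (4 * n) n := by
    obtain ⟨r, hr20, hrn, hr, hmax⟩ := exists_last (fun t => e0 < Eps P t) n.toNat (by omega)
    have hnn : ((n.toNat : ℕ) : ℤ) = n := Int.toNat_of_nonneg (by omega)
    rw [hnn] at hrn hmax
    have hsqr : c0 ≤ P.L r (r + r / 50) := hsq r (by omega) (by omega)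
    have hL4 : a4 ≤ P.L (4 * r) r := by
      rcases hr with rfl | hr
      · exact (ha4 ▸ min_le_left _ _ : a4 ≤ c1).trans (by norm_num; exact hbase)
      · refine (ha4 ▸ min_le_right _ _ : a4 ≤ e0 * (c0 * e0) ^ 19).trans ?_
        exact h5 P c0 e0 r h0.le he0p.le hr20 hsqr (le_of_lt hr)
    rcases lt_or_ge n (5000 * r) with hlt | hge
    · -- direct gluing
      have h6 := iterO P (w := 4 * r) (h := r) (o := r + r / 50) (by omega) (by omega) (by omega)
        h0.le ha4p.le hsqr hL4 10000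
      refine (hcL ▸ min_le_left _ _ : cL ≤ a4 * (c0 * a4) ^ 10000).trans (h6.trans ?_)
      refine P.L_mono geo (by omega) ?_ hrn
      push_cast
      omega
    · -- arms and circuit
      obtain ⟨B, hB⟩ : ∃ B : ℤ, B = n - 4 * r := ⟨_, rfl⟩
      have harm0 : ARM P (c0 / 5000) B r := by
        refine hArm P c0 r n h0 (by omega) (fun s h1 h2 => hsq s h1 (by omega)) ?_ B (by omega)
          (by omega)
        intro s h1 h2
        have := hmax s h1 h2
        rw [he0] at this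
        exact not_lt.1 this
      have hA : a4 ^ 4 ≤ P.p (Ann 0 0 r) := P.Ann_ge 0 0 ha4p.le hL4
      have h7 := h4 P (c0 / 5000) (a4 ^ 4) B r r (by positivity) (by positivity) (by omega) le_rfl
        (by omega) (by omega) harm0 hA
      have h8 : a' ≤ Eps P n := by
        rw [ha']
        have e : B + 4 * r = n := by omega
        rw [e] at h7
        exact h7.trans (P.L_mono geo (by omega) (by omega) le_rfl)
      refine (hcL ▸ min_le_right _ _ : cL ≤ a' * (c0 * a') ^ 19).trans ?_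
      exact h5 P c0 a' n h0.le ha'p.le hn (hsq n (by omega) hnN) h8
  refine ⟨(min_le_left _ _).trans main, fun p q => (min_le_right _ _).trans ?_⟩
  exact P.Ann_ge p q hcLp.le main

/-- **RSW**: FKG + symmetries + near-squares at all scales give annulus circuits. -/
theorem rswStmt2 : RSWStmt2 := finStmt2 armAll2 l4 l5Stmt2

end H935

end Vale.Agent.P159.RSW
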