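import Vale.Agent.P159.RSW.Spec

/-!
# RSW, row L1: every crossing of a window visits one of its two gaps
-/

namespace Vale.Agent.P159.RSW

open Vale.Agent.P145.FB Vale.Agent.P153 Vale.Agent.P153.Topo Relation

/-! ### Arms: locality and symmetries -/

theorem IL_NArm (a b c d x y r : ℤ) : IL (NArm a b c d x y r) :=
  IL_ex _ (rc_bdd a b c d) (fun u v => u ∈ gp x y r ∧ v.2 = 2 * d)

theorem IL_SArm (a b c d x y r : ℤ) : IL (SArm a b c d x y r) :=
  IL_ex _ (rc_bdd a b c d) (fun u v => u ∈ gp x y r ∧ v.2 = 2 * c)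

theorem IL_WArm (a b c d x y r : ℤ) : IL (WArm a b c d x y r) :=
  IL_ex _ (rc_bdd a b c d) (fun u v => u ∈ gp x y r ∧ v.1 = 2 * a)

theorem IL_Av (G : Set (ℤ × ℤ)) (a b c d : ℤ) : IL (Av G a b c d) :=
  IL_ex (R := rc a b c d ∩ Gᶜ) _ (fun z hz => rc_bdd a b c d z hz.1)
    (fun u v => u.1 = 2 * a ∧ v.1 = 2 * b)

theorem NArm_shift (S : Set (ℤ × ℤ)) (a b c d x y r p q : ℤ) :
    NArm a b c d x y r {z | (z.1 + 2 * p, z.2 + 2 * q) ∈ S} ↔
      NArm (a + p) (b + p) (c + q) (d + q) (x + p) (y + q) r S := by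
  refine ex_iff (T := fun z => (z.1 + 2 * p, z.2 + 2 * q))
    (T' := fun z => (z.1 + 2 * (-p), z.2 + 2 * (-q))) ?_ (nn_shift p q) (nn_shift (-p) (-q)) ?_ ?_ S
  · rintro ⟨x, y⟩; ext <;> dsimp only <;> ring
  · rintro ⟨x, y⟩; simp only [rc, Set.mem_ofPred_eq]; constructor <;> intro h <;> omega
  · rintro ⟨x, y⟩ ⟨x', y'⟩; simp only [gp, rc, Set.mem_ofPred_eq]; omega

theorem SArm_shift (S : Set (ℤ × ℤ)) (a b c d x y r p q : ℤ) :
    SArm a b c d x y r {z | (z.1 + 2 * p, z.2 + 2 * q) ∈ S} ↔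
      SArm (a + p) (b + p) (c + q) (d + q) (x + p) (y + q) r S := by
  refine ex_iff (T := fun z => (z.1 + 2 * p, z.2 + 2 * q))
    (T' := fun z => (z.1 + 2 * (-p), z.2 + 2 * (-q))) ?_ (nn_shift p q) (nn_shift (-p) (-q)) ?_ ?_ S
  · rintro ⟨x, y⟩; ext <;> dsimp only <;> ring
  · rintro ⟨x, y⟩; simp only [rc, Set.mem_ofPred_eq]; constructor <;> intro h <;> omega
  · rintro ⟨x, y⟩ ⟨x', y'⟩; simp only [gp, rc, Set.mem_ofPred_eq]; omega

theorem NArm_refly (S : Set (ℤ × ℤ)) (a b c d x y r : ℤ) :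
    NArm a b c d x y r {z | (z.1, -z.2) ∈ S} ↔ SArm a b (-d) (-c) x (-y - r) r S := by
  refine ex_iff (T := fun z => (z.1, -z.2)) (T' := fun z => (z.1, -z.2)) ?_ nn_refly nn_refly ?_ ?_ S
  · rintro ⟨x, y⟩; ext <;> dsimp only <;> ring
  · rintro ⟨x, y⟩; simp only [rc, Set.mem_ofPred_eq]; constructor <;> intro h <;> omega
  · rintro ⟨x, y⟩ ⟨x', y'⟩; simp only [gp, rc, Set.mem_ofPred_eq]; omega

variable (P : PP)

theorem p_NArm_shift (a b c d x y r p q : ℤ) :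
    P.p (NArm (a + p) (b + p) (c + q) (d + q) (x + p) (y + q) r) = P.p (NArm a b c d x y r) := by
  rw [← P.shift p q _ (IL_NArm a b c d x y r)]
  congr 1
  funext S
  exact propext (NArm_shift S a b c d x y r p q).symm

theorem p_SArm_shift (a b c d x y r p q : ℤ) :
    P.p (SArm (a + p) (b + p) (c + q) (d + q) (x + p) (y + q) r) = P.p (SArm a b c d x y r) := by
  rw [← P.shift p q _ (IL_SArm a b c d x y r)]
  congr 1
  funext S
  exact propext (SArm_shift S a b c d x y r p q).symm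

theorem p_SArm (a b c d x y r : ℤ) :
    P.p (SArm a b (-d) (-c) x (-y - r) r) = P.p (NArm a b c d x y r) := by
  rw [← P.refly _ (IL_NArm a b c d x y r)]
  congr 1
  funext S
  exact propext (NArm_refly S a b c d x y r).symm

/-- The arm up from the gap at `(X + x, Y)`. -/
theorem p_up (B x y r X Y : ℤ) :
    P.p (NArm X (X + B) (Y - y) (Y - y + B) (X + x) Y r) = P.p (NArm 0 B 0 B x y r) := by
  rw [← p_NArm_shift P 0 B 0 B x y r X (Y - y)]
  congr 2 <;> ring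

/-- The arm down from the gap at `(X + x, Y)`. -/
theorem p_down (B x y r X Y : ℤ) :
    P.p (SArm X (X + B) (Y + y + r - B) (Y + y + r) (X + x) Y r) = P.p (NArm 0 B 0 B x y r) := by
  rw [← p_SArm P 0 B 0 B x y r, ← p_SArm_shift P 0 B (-B) (-0) x (-y - r) r X (Y + y + r)]
  congr 2 <;> ring

/-! ### Deterministic part -/

theorem conn_rect {a b c d : ℤ} {u v : ℤ × ℤ} (hu : u ∈ rc a b c d) (hv : v ∈ rc a b c d) :
    Conn (rc a b c d) u v := by
  obtain ⟨u1, u2⟩ := u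
  obtain ⟨v1, v2⟩ := v
  rw [mem_rc] at hu hv
  dsimp only at hu hv
  have e1 : Conn (rc a b c d) (u1, u2) (v1, u2) := conn_row (fun i h1 h2 => by
    rw [mem_rc]; dsimp only; omega)
  have e2 : Conn (rc a b c d) (v1, u2) (v1, v2) := conn_col (fun j h1 h2 => by
    rw [mem_rc]; dsimp only; omega)
  exact e1.trans e2

/-- A crossing which avoids the gap meets one of the two arms. -/
theorem hit {S RN RS G : Set (ℤ × ℤ)} {X X' Y Y' x y r : ℤ} (hYY : Y ≤ Y')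
    (hRN : ∀ z ∈ RN, 2 * X ≤ z.1 ∧ z.1 ≤ 2 * X') (hRS : ∀ z ∈ RS, 2 * X ≤ z.1 ∧ z.1 ≤ 2 * X')
    (hx : X ≤ x) (hx' : x + r ≤ X') (hG : gp x y r ⊆ G) {uN vN uS vS a b : ℤ × ℤ}
    (hN : NC (S ∩ RN) uN vN) (hNg : uN ∈ gp x y r) (hNt : 2 * Y' ≤ vN.2)
    (hS : NC (S ∩ RS) uS vS) (hSg : uS ∈ gp x y r) (hSt : vS.2 ≤ 2 * Y)
    (hA : NC (S ∩ (rc X X' Y Y' ∩ Gᶜ)) a b) (ha : a.1 = 2 * X) (hb : b.1 = 2 * X') :
    ∃ z, NC (S ∩ (rc X X' Y Y' ∩ Gᶜ)) a z ∧ (NC (S ∩ RN) uN z ∨ NC (S ∩ RS) uS z) := by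
  set B : Set (ℤ × ℤ) := ({z | NC (S ∩ RN) uN z} ∪ {z | NC (S ∩ RS) uS z}) ∪ gp x y r with hB
  have c1 : Conn B vS uS := by
    have := hS.cluster.conn.symm
    exact this.mono (fun z hz => Or.inl (Or.inr hz))
  have c2 : Conn B uS uN := (conn_rect hSg hNg).mono (fun z hz => Or.inr hz)
  have c3 : Conn B uN vN := hN.cluster.conn.mono (fun z hz => Or.inl (Or.inl hz))
  have c4 : Conn B vS vN := (c1.trans c2).trans c3
  have hf2 : ∀ u v : ℤ × ℤ, Adj u v → v.2 ≤ u.2 + 1 := by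
    intro u v huv
    rw [adj_iff] at huv
    omega
  obtain ⟨z, w, hz, hw, hzw⟩ := Conn.exit (f := fun u => u.2) hf2 (c := 2 * Y) (d := 2 * Y')
    (by omega) c4 hSt hNt
  obtain ⟨t, ht1, ht2⟩ := cross (A := {z | NC (S ∩ (rc X X' Y Y' ∩ Gᶜ)) a z})
    (B := B ∩ {u | 2 * Y ≤ u.2 ∧ u.2 ≤ 2 * Y'}) (a := 2 * X) (b := 2 * X') (c := 2 * Y)
    (d := 2 * Y') (fun z hz => hz.right_mem.2.1)
    (by
      rintro u ⟨(hu | hu) | hu, h1, h2⟩
      · have := hRN u hu.right_mem.2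
        exact ⟨this.1, this.2, h1, h2⟩
      · have := hRS u hu.right_mem.2
        exact ⟨this.1, this.2, h1, h2⟩
      · have h3 : u ∈ rc x (x + r) y (y + r) := hu
        rw [mem_rc] at h3
        exact ⟨by omega, by omega, h1, h2⟩)
    hA.cluster.conn ha hb hzw hz hw
  refine ⟨t, ht1, ?_⟩
  rcases ht2.1 with (h | h) | h
  · exact Or.inl h
  · exact Or.inr h
  · exact absurd (hG h) ht1.right_mem.2.2

/-- A path in a vertical strip with large vertical extent. -/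
theorem harm {S : Set (ℤ × ℤ)} {X X' lo hi e h : ℤ} {p q : ℤ × ℤ} (hh : 0 ≤ h)
    (hpq : NC (S ∩ rc X X' lo hi) p q) (hp : p.2 ≤ 2 * e) (hq : 2 * (e + h) ≤ q.2) :
    BTc X X' e (e + h) S := by
  obtain ⟨z, w, hz, hw, hzw, _, _⟩ := hpq.exit (f := Prod.snd) nn_snd (c := 2 * e)
    (d := 2 * (e + h)) (by omega) hp hq
  refine ⟨z, w, hzw.mono ?_, hz, hw⟩
  rintro u ⟨⟨hu1, hu2⟩, hu3, hu4⟩
  rw [mem_rc] at hu2
  exact ⟨hu1, by rw [mem_rc]; omega⟩

theorem det1 (B r x y X Y : ℤ) (hB : 10 ≤ B) (hr : 0 ≤ r) (hx : 0 ≤ x) (hxr : x + r ≤ B)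
    (hy : 0 ≤ y) (hyr : 10 * (y + r) ≤ B) (S : Set (ℤ × ℤ))
    (h0 : Av (G2 B r x y X Y) X (X + B) Y (Y + Ht B) S)
    (g : ℤ) (hg : g = Y + B - y - r - B / 2)
    (g' : ℤ) (hg' : g' = Y + B - y - r)
    (h1 : NArm X (X + B) (g - y) (g - y + B) (X + x) g r S)
    (h2 : SArm X (X + B) (g + y + r - B) (g + y + r) (X + x) g r S)
    (h3 : NArm X (X + B) (g' - y) (g' - y + B) (X + x) g' r S)
    (h4 : SArm X (X + B) (g' + y + r - B) (g' + y + r) (X + x) g' r S) :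
    (BTc X (X + B) (g + r) (g + r + (B + B / 5)) S ∨
      BTc X (X + B) (g + y + r - B) (g + y + r - B + (B + B / 5)) S) ∨
      BTc X (X + B) Y (Y + (B + B / 5)) S := by
  obtain ⟨a, b, hA, ha, hb⟩ := h0
  obtain ⟨u1, v1, k1, k1g, k1t⟩ := h1
  obtain ⟨u2, v2, k2, k2g, k2t⟩ := h2
  obtain ⟨u3, v3, k3, k3g, k3t⟩ := h3
  obtain ⟨u4, v4, k4, k4g, k4t⟩ := h4
  have hHt : Ht B = B + B / 5 + 2 * (B / 25) := rfl
  have hYY : Y ≤ Y + Ht B := by omega
  have e1 : gp (X + x) g r ⊆ G2 B r x y X Y := by rw [hg]; exact Set.subset_union_left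
  have e2 : gp (X + x) g' r ⊆ G2 B r x y X Y := by rw [hg']; exact Set.subset_union_right
  have st : ∀ lo hi : ℤ, ∀ z ∈ rc X (X + B) lo hi, 2 * X ≤ z.1 ∧ z.1 ≤ 2 * (X + B) :=
    fun lo hi z hz => by rw [mem_rc] at hz; omega
  obtain ⟨z, hz1, hz2⟩ := hit hYY (st _ _) (st _ _) (by omega) (by omega) e1 k1 k1g
    (by rw [k1t]; omega) k2 k2g (by rw [k2t]; omega) hA ha hb
  obtain ⟨w, hw1, hw2⟩ := hit hYY (st _ _) (st _ _) (by omega) (by omega) e2 k3 k3g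
    (by rw [k3t]; omega) k4 k4g (by rw [k4t]; omega) hA ha hb
  -- everything inside one strip
  obtain ⟨lo, hlo⟩ : ∃ lo : ℤ, lo = g + y + r - B := ⟨_, rfl⟩
  obtain ⟨hi, hhi⟩ : ∃ hi : ℤ, hi = g' - y + B := ⟨_, rfl⟩
  have m0 : S ∩ (rc X (X + B) Y (Y + Ht B) ∩ (G2 B r x y X Y)ᶜ) ⊆ S ∩ rc X (X + B) lo hi := by
    rintro t ⟨ht1, ht2, _⟩
    exact ⟨ht1, rc_mono le_rfl le_rfl (by omega) (by omega) ht2⟩
  have m : ∀ c d : ℤ, lo ≤ c → d ≤ hi → S ∩ rc X (X + B) c d ⊆ S ∩ rc X (X + B) lo hi :=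
    fun c d hc hd => Set.inter_subset_inter_right _ (rc_mono le_rfl le_rfl hc hd)
  have hzw : NC (S ∩ rc X (X + B) lo hi) z w :=
    (hz1.mono m0).symm.trans (hw1.mono m0)
  have q1g : u1.2 ≤ 2 * (g + r) := by
    have h : u1 ∈ rc (X + x) (X + x + r) g (g + r) := k1g
    rw [mem_rc] at h; omega
  have q4g : 2 * g' ≤ u4.2 := by
    have h : u4 ∈ rc (X + x) (X + x + r) g' (g' + r) := k4g
    rw [mem_rc] at h; omega
  rcases hz2 with hz2 | hz2 <;> rcases hw2 with hw2 | hw2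
  · -- (N, N')
    left; left
    have p1 : NC (S ∩ rc X (X + B) lo hi) u1 z := hz2.mono (m _ _ (by omega) (by omega))
    have p2 : NC (S ∩ rc X (X + B) lo hi) w v3 :=
      (hw2.symm.trans k3).mono (m _ _ (by omega) (by omega))
    exact harm (by omega) ((p1.trans hzw).trans p2) q1g (by rw [k3t]; omega)
  · -- (N, S')
    right
    have p1 : NC (S ∩ rc X (X + B) lo hi) z v1 :=
      (hz2.symm.trans k1).mono (m _ _ (by omega) (by omega))
    have p2 : NC (S ∩ rc X (X + B) lo hi) v4 w :=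
      (hw2.symm.trans k4).symm.mono (m _ _ (by omega) (by omega))
    exact harm (by omega) ((p2.trans hzw.symm).trans p1) (by rw [k4t]; omega) (by rw [k1t]; omega)
  · -- (S, N')
    left; right
    have p1 : NC (S ∩ rc X (X + B) lo hi) v2 z :=
      (hz2.symm.trans k2).symm.mono (m _ _ (by omega) (by omega))
    have p2 : NC (S ∩ rc X (X + B) lo hi) w v3 :=
      (hw2.symm.trans k3).mono (m _ _ (by omega) (by omega))
    exact harm (by omega) ((p1.trans hzw).trans p2) (by rw [k2t]) (by rw [k3t]; omega)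
  · -- (S, S')
    left; right
    have p1 : NC (S ∩ rc X (X + B) lo hi) v2 z :=
      (hz2.symm.trans k2).symm.mono (m _ _ (by omega) (by omega))
    have p2 : NC (S ∩ rc X (X + B) lo hi) w u4 :=
      hw2.symm.mono (m _ _ (by omega) (by omega))
    exact harm (by omega) ((p1.trans hzw).trans p2) (by rw [k2t]) (by omega)

theorem l1 : L1Stmt := by
  intro P c B r x y X Y hc hB hr hx hxr hy hyr harm0
  obtain ⟨g, hg⟩ : ∃ g : ℤ, g = Y + B - y - r - B / 2 := ⟨_, rfl⟩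
  obtain ⟨g', hg'⟩ : ∃ g' : ℤ, g' = Y + B - y - r := ⟨_, rfl⟩
  have a1 : c ≤ P.p (NArm X (X + B) (g - y) (g - y + B) (X + x) g r) := by
    rw [p_up]; exact harm0
  have a2 : c ≤ P.p (SArm X (X + B) (g + y + r - B) (g + y + r) (X + x) g r) := by
    rw [p_down]; exact harm0
  have a3 : c ≤ P.p (NArm X (X + B) (g' - y) (g' - y + B) (X + x) g' r) := by
    rw [p_up]; exact harm0
  have a4 : c ≤ P.p (SArm X (X + B) (g' + y + r - B) (g' + y + r) (X + x) g' r) := by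
    rw [p_down]; exact harm0
  have b12 := P.fkg2 (T := fun S => NArm X (X + B) (g - y) (g - y + B) (X + x) g r S ∧
    SArm X (X + B) (g + y + r - B) (g + y + r) (X + x) g r S) (IL_NArm _ _ _ _ _ _ _)
    (IL_SArm _ _ _ _ _ _ _) (fun S h1 h2 => ⟨h1, h2⟩) hc hc a1 a2
  have b34 := P.fkg2 (T := fun S => NArm X (X + B) (g' - y) (g' - y + B) (X + x) g' r S ∧
    SArm X (X + B) (g' + y + r - B) (g' + y + r) (X + x) g' r S) (IL_NArm _ _ _ _ _ _ _)
    (IL_SArm _ _ _ _ _ _ _) (fun S h1 h2 => ⟨h1, h2⟩) hc hc a3 a4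
  have key := P.fkg3 (T := fun S => (BTc X (X + B) (g + r) (g + r + (B + B / 5)) S ∨
      BTc X (X + B) (g + y + r - B) (g + y + r - B + (B + B / 5)) S) ∨
      BTc X (X + B) Y (Y + (B + B / 5)) S)
    (IL_Av (G2 B r x y X Y) X (X + B) Y (Y + Ht B))
    ((IL_NArm X (X + B) (g - y) (g - y + B) (X + x) g r).and
      (IL_SArm X (X + B) (g + y + r - B) (g + y + r) (X + x) g r))
    ((IL_NArm X (X + B) (g' - y) (g' - y + B) (X + x) g' r).and
      (IL_SArm X (X + B) (g' + y + r - B) (g' + y + r) (X + x) g' r))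
    (fun S h0 h12 h34 => det1 B r x y X Y hB hr hx hxr hy hyr S h0 g hg g' hg' h12.1 h12.2
      h34.1 h34.2)
    (P.nonneg _) (mul_nonneg hc hc) (mul_nonneg hc hc) le_rfl b12 b34
  have u1 := P.or_le (fun S => BTc X (X + B) (g + r) (g + r + (B + B / 5)) S ∨
      BTc X (X + B) (g + y + r - B) (g + y + r - B + (B + B / 5)) S)
      (BTc X (X + B) Y (Y + (B + B / 5)))
  have u2 := P.or_le (BTc X (X + B) (g + r) (g + r + (B + B / 5)))
      (BTc X (X + B) (g + y + r - B) (g + y + r - B + (B + B / 5)))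
  have e : ∀ k : ℤ, P.p (BTc X (X + B) k (k + (B + B / 5))) = Eps P B := by
    intro k
    rw [P.B_eq', Eps]
    congr 1 <;> ring
  rw [e, e] at u2
  rw [e] at u1
  have h5 : 0 ≤ Eps P B := P.nonneg _
  have e4 : P.p (Av (G2 B r x y X Y) X (X + B) Y (Y + Ht B)) * (c * c) * (c * c) =
    P.p (Av (G2 B r x y X Y) X (X + B) Y (Y + Ht B)) * c ^ 4 := by ring
  rw [e4] at key
  linarith

end Vale.Agent.P159.RSW
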