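import Vale.Agent.P159.RSW.Spec

/-!
# RSW: frozen statements, version 2 (near-squares instead of squares)

(SQT): the distance `s` is crossed with room `s + s / 50`. `L1Stmt`, `SymStmt`, `L4Stmt` are those
of `Spec.lean`.
-/

namespace Vale.Agent.P159.RSW

open Vale.Agent.P145.FB

/-- (L2), version 2 -/
def L2Stmt2 : Prop := ∀ (P : PP) (c0 : ℝ) (B r : ℤ), 0 < c0 → c0 ≤ 1 → 1 ≤ r → 2000 * r ≤ B →
  c0 ≤ P.L (B - B / 50) B → ARM P (c0 / 5000) (B / 13) r → Eps P (B / 13) ≤ (c0 / 5000) ^ 6 →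
  ARM P (c0 / 5000) B r

/-- (L3), version 2 -/
def L3Stmt2 : Prop := ∀ (P : PP) (c0 : ℝ) (B r : ℤ), 0 < c0 → 1 ≤ r → 20 * r ≤ B →
  B < 2000 * r → c0 ≤ P.L (B - B / 50) B → ARM P (c0 / 5000) B r

/-- (L23), version 2: arms at all scales above `r`. -/
def ArmAll2 : Prop := ∀ (P : PP) (c0 : ℝ) (r N : ℤ), 0 < c0 → 1 ≤ r →
  (∀ s, 1 ≤ s → s ≤ N → c0 ≤ P.L s (s + s / 50)) →
  (∀ s, r < s → s ≤ N → Eps P s ≤ (c0 / 5000) ^ 6) →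
  ∀ B, 20 * r ≤ B → B ≤ N → ARM P (c0 / 5000) B r

/-- (L5), version 2: from ratio 6/5 to ratio 4. -/
def L5Stmt2 : Prop := ∀ (P : PP) (c0 a : ℝ) (r : ℤ), 0 ≤ c0 → 0 ≤ a → 20 ≤ r →
  c0 ≤ P.L r (r + r / 50) → a ≤ Eps P r → a * (c0 * a) ^ 19 ≤ P.L (4 * r) r

/-- **RSW**, version 2: positive association, symmetries, near-squares of all sides. -/
def RSWStmt2 : Prop := ∀ c0 c1 : ℝ, 0 < c0 → 0 < c1 → ∃ c : ℝ, 0 < c ∧ ∀ (P : PP) (N : ℤ),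
  (∀ s, 1 ≤ s → s ≤ N → c0 ≤ P.L s (s + s / 50)) → c1 ≤ P.L 80 20 →
  ∀ n, 20 ≤ n → n ≤ N → c ≤ P.L (4 * n) n ∧ ∀ p q : ℤ, c ≤ P.p (Ann p q n)

/-- The last step. -/
def FinStmt2 : Prop := ArmAll2 → L4Stmt → L5Stmt2 → RSWStmt2

/-- (Step 0): easy crossings of ratio `1 : 4` give near-squares. -/
def StepStmt : Prop := ∀ (P : PP) (p1 c1 : ℝ), 0 < p1 → 0 < c1 → c1 ≤ P.L 1 0 → ∀ N : ℤ,
  (∀ s, 1 ≤ s → s ≤ N → p1 ≤ P.L s (4 * s)) →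
  ∀ t, 1 ≤ t → t + t / 100 ≤ N → min (p1 / 4000) (c1 ^ 400) ≤ P.L t (t + t / 50)

end Vale.Agent.P159.RSW
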