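import Vale.Agent.P159.RSW.L1
import Vale.Agent.P159.RSW.Spec2

/-!
# RSW, rows SYM and L2 (v2: easy crossings): landing on a gap of a smaller scale
-/

namespace Vale.Agent.P159.RSW

namespace H935

open Vale.Agent.P145.FB Vale.Agent.P153 Vale.Agent.P153.Topo Relation

theorem WArm_swap (S : Set (ℤ × ℤ)) (a b c d x y r : ℤ) :
    WArm a b c d x y r {z | (z.2, z.1) ∈ S} ↔ SArm c d a b y x r S := by
  refine ex_iff (T := fun z => (z.2, z.1)) (T' := fun z => (z.2, z.1)) ?_ nn_swap nn_swap ?_ ?_ S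
  · rintro ⟨x, y⟩; rfl
  · rintro ⟨x, y⟩; simp only [rc, Set.mem_ofPred_eq]; constructor <;> intro h <;> omega
  · rintro ⟨x, y⟩ ⟨x', y'⟩; simp only [gp, rc, Set.mem_ofPred_eq]; omega

theorem p_WArm (P : PP) (a b c d x y r : ℤ) :
    P.p (SArm c d a b y x r) = P.p (WArm a b c d x y r) := by
  rw [← P.swap _ (IL_WArm a b c d x y r)]
  congr 1
  funext S
  exact propext (WArm_swap S a b c d x y r).symm

theorem p_NW (P : PP) (B x y r : ℤ) :
    P.p (NArm 0 B 0 B y (B - x - r) r) = P.p (WArm 0 B 0 B x y r) := by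
  rw [← p_SArm P 0 B 0 B y (B - x - r) r, ← p_WArm P 0 B 0 B x y r,
    ← p_SArm_shift P 0 B (-B) (-0) y (-(B - x - r) - r) r 0 B]
  congr 2 <;> ring

theorem sym : SymStmt := by
  rintro P c B r hr ⟨x, y, h1, h2, h3, h4, h5⟩
  refine ⟨y, B - x - r, h1, h2, by omega, by omega, ?_⟩
  rw [p_NW]; exact h5

/-- The range of a path. -/
theorem NC.range {T : Set (ℤ × ℤ)} {u v : ℤ × ℤ} (h : NC T u v) :
    ∃ (m M : ℤ) (p q : ℤ × ℤ), NC (T ∩ {z | m ≤ z.2 ∧ z.2 ≤ M}) u v ∧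
      NC (T ∩ {z | m ≤ z.2 ∧ z.2 ≤ M}) u p ∧ NC (T ∩ {z | m ≤ z.2 ∧ z.2 ≤ M}) u q ∧
      p.2 = m ∧ q.2 = M := by
  refine NC.ind (fun v => ∃ (m M : ℤ) (p q : ℤ × ℤ), NC (T ∩ {z | m ≤ z.2 ∧ z.2 ≤ M}) u v ∧
      NC (T ∩ {z | m ≤ z.2 ∧ z.2 ≤ M}) u p ∧ NC (T ∩ {z | m ≤ z.2 ∧ z.2 ≤ M}) u q ∧
      p.2 = m ∧ q.2 = M) ?_ ?_ h
  · have h0 : NC (T ∩ {z | u.2 ≤ z.2 ∧ z.2 ≤ u.2}) u u := NC.refl ⟨h.1, le_rfl, le_rfl⟩
    exact ⟨u.2, u.2, u, u, h0, h0, h0, rfl, rfl⟩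
  · rintro a b _ hab hb ⟨m, M, p, q, g1, g2, g3, g4, g5⟩
    have hm : ∀ {z : ℤ × ℤ}, NC (T ∩ {z | m ≤ z.2 ∧ z.2 ≤ M}) u z →
        NC (T ∩ {z | min m b.2 ≤ z.2 ∧ z.2 ≤ max M b.2}) u z := by
      intro z hz
      refine hz.mono ?_
      rintro w ⟨hw1, hw2, hw3⟩
      exact ⟨hw1, (min_le_left _ _).trans hw2, hw3.trans (le_max_left _ _)⟩
    have gb : NC (T ∩ {z | min m b.2 ≤ z.2 ∧ z.2 ≤ max M b.2}) u b :=
      (hm g1).tail hab ⟨hb, min_le_right _ _, le_max_right _ _⟩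
    have gp : ∃ p : ℤ × ℤ, NC (T ∩ {z | min m b.2 ≤ z.2 ∧ z.2 ≤ max M b.2}) u p ∧
        p.2 = min m b.2 := by
      rcases le_total m b.2 with h1 | h1
      · exact ⟨p, hm g2, by rw [g4, min_eq_left h1]⟩
      · exact ⟨b, gb, (min_eq_right h1).symm⟩
    have gq : ∃ q : ℤ × ℤ, NC (T ∩ {z | min m b.2 ≤ z.2 ∧ z.2 ≤ max M b.2}) u q ∧
        q.2 = max M b.2 := by
      rcases le_total b.2 M with h1 | h1
      · exact ⟨q, hm g3, by rw [g5, max_eq_left h1]⟩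
      · exact ⟨b, gb, (max_eq_right h1).symm⟩
    obtain ⟨p', hp1, hp2⟩ := gp
    obtain ⟨q', hq1, hq2⟩ := gq
    exact ⟨_, _, p', q', gb, hp1, hq1, hp2, hq2⟩

/-- A path avoids `G` or visits it. -/
theorem NC.avoid {A G : Set (ℤ × ℤ)} {u v : ℤ × ℤ} (h : NC A u v) :
    NC (A ∩ Gᶜ) u v ∨ ∃ t ∈ G, NC A u t := by
  refine NC.ind (fun v => NC (A ∩ Gᶜ) u v ∨ ∃ t ∈ G, NC A u t) ?_ ?_ h
  · by_cases hu : u ∈ G
    · exact Or.inr ⟨u, hu, NC.refl h.1⟩
    · exact Or.inl (NC.refl ⟨h.1, hu⟩)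
  · rintro a b ha hab hb (h1 | h1)
    · by_cases hbG : b ∈ G
      · exact Or.inr ⟨b, hbG, ha.tail hab hb⟩
      · exact Or.inl (h1.tail hab ⟨hb, hbG⟩)
    · exact Or.inr h1

/-- Clamping of the vertical position of a gap. -/
def cl (B r t : ℤ) : ℤ := max 0 (min t (B - r))

theorem det2 (B r s k x y W X : ℤ) (hr : 1 ≤ r) (hB : 2000 * r ≤ B) (hs : s = B / 13)
    (hk : k = s / 25) (hW : W = B - B / 50) (hX : X = W - s) (S : Set (ℤ × ℤ))
    (h : LRc 0 W 0 B S) :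
    ((∃ i : ℕ, i ≤ 399 ∧ BTc X (X + s) (i * k) (i * k + (s + s / 5)) S) ∨
      (∃ i : ℕ, i ≤ 399 ∧ Av (G2 s r x y X (i * k)) X (X + s) (i * k) (i * k + Ht s) S)) ∨
    ((∃ i : ℕ, i ≤ 399 ∧ WArm 0 B 0 B (X + x) (cl B r (i * k + s - y - r - s / 2)) r S) ∨
      (∃ i : ℕ, i ≤ 399 ∧ WArm 0 B 0 B (X + x) (cl B r (i * k + s - y - r)) r S)) := by
  obtain ⟨u, v, huv, hu, hv⟩ := h
  have hk6 : 6 ≤ k := by omega
  have hBk : B ≤ 325 * k + 324 := by omega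
  obtain ⟨z, w, hz, hw, hzw, huz, _⟩ := huv.exit (f := Prod.fst) nn_fst (c := 2 * X) (d := 2 * W)
    (by omega) (by omega) (by omega)
  have hT : S ∩ rc 0 W 0 B ∩ {t | 2 * X ≤ t.1 ∧ t.1 ≤ 2 * W} ⊆ S ∩ rc X (X + s) 0 B := by
    rintro t ⟨⟨ht1, ht2⟩, ht3, ht4⟩
    rw [mem_rc] at ht2
    exact ⟨ht1, by rw [mem_rc]; omega⟩
  have hzw' : NC (S ∩ rc X (X + s) 0 B) z w := hzw.mono hT
  obtain ⟨m, M, p, q, g1, g2, g3, g4, g5⟩ := NC.range hzw'
  have hm0 : 0 ≤ m := by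
    have := g2.right_mem.1.2
    rw [mem_rc] at this; omega
  have hM0 : M ≤ 2 * B := by
    have := g3.right_mem.1.2
    rw [mem_rc] at this; omega
  have hmM : m ≤ M := by
    have := g2.right_mem.2
    have h2 : m ≤ p.2 ∧ p.2 ≤ M := this
    omega
  by_cases hext : 2 * (s + s / 5 + k) ≤ M - m
  · -- large extent
    left; left
    obtain ⟨i, hi⟩ : ∃ i : ℤ, i = (m + 2 * k - 1) / (2 * k) := ⟨_, rfl⟩
    have h2k : (0 : ℤ) < 2 * k := by omega
    have e1 : 2 * k * i ≤ m + 2 * k - 1 := by rw [hi]; exact Int.mul_ediv_self_le (by omega)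
    have e2 : m + 2 * k - 1 < 2 * k * i + 2 * k := by
      rw [hi]; exact Int.lt_mul_ediv_self_add h2k
    have e3 : 0 ≤ i := by rw [hi]; exact Int.ediv_nonneg (by omega) (by omega)
    have e4 : i ≤ 399 := by
      by_contra hcon
      have : 2 * k * 400 ≤ 2 * k * i := mul_le_mul_of_nonneg_left (by omega) (by omega)
      omega
    refine ⟨i.toNat, by omega, ?_⟩
    have e5 : ((i.toNat : ℕ) : ℤ) = i := Int.toNat_of_nonneg e3
    rw [e5]
    have e6 : 2 * k * i = 2 * (i * k) := by ring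
    have k1 : NC (S ∩ rc X (X + s) 0 B) p q :=
      (g2.symm.trans g3).mono Set.inter_subset_left
    exact harm (by omega) k1 (by omega) (by omega)
  · obtain ⟨i, hi⟩ : ∃ i : ℤ, i = m / (2 * k) := ⟨_, rfl⟩
    have h2k : (0 : ℤ) < 2 * k := by omega
    have e1 : 2 * k * i ≤ m := by rw [hi]; exact Int.mul_ediv_self_le (by omega)
    have e2 : m < 2 * k * i + 2 * k := by
      rw [hi]; exact Int.lt_mul_ediv_self_add h2k
    have e3 : 0 ≤ i := by rw [hi]; exact Int.ediv_nonneg (by omega) (by omega)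
    have e4 : i ≤ 399 := by
      by_contra hcon
      have : 2 * k * 400 ≤ 2 * k * i := mul_le_mul_of_nonneg_left (by omega) (by omega)
      omega
    have e5 : ((i.toNat : ℕ) : ℤ) = i := Int.toNat_of_nonneg e3
    have e6 : 2 * k * i = 2 * (i * k) := by ring
    have hHt : Ht s = s + s / 5 + 2 * (s / 25) := rfl
    have k1 : NC (S ∩ rc X (X + s) 0 B ∩ rc X (X + s) (i * k) (i * k + Ht s)) z w := by
      refine g1.mono ?_
      rintro t ⟨⟨ht1, ht2⟩, ht3, ht4⟩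
      refine ⟨⟨ht1, ht2⟩, ?_⟩
      rw [mem_rc] at ht2 ⊢
      omega
    rcases NC.avoid (G := G2 s r x y X (i * k)) k1 with h1 | ⟨t, htG, ht⟩
    · left; right
      refine ⟨i.toNat, by omega, z, w, ?_, by omega, by omega⟩
      rw [e5]
      refine h1.mono ?_
      rintro t ⟨⟨⟨ht1, _⟩, ht3⟩, ht4⟩
      exact ⟨ht1, ht3, ht4⟩
    · right
      have k2 : NC (S ∩ rc 0 B 0 B) t u := by
        have a1 : NC (S ∩ rc 0 B 0 B) u z := huz.mono
          (Set.inter_subset_inter_right _ (rc_mono le_rfl (by omega) le_rfl le_rfl))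
        have a2 : NC (S ∩ rc 0 B 0 B) z t := ht.mono (by
          rintro t ⟨⟨ht1, ht2⟩, _⟩
          exact ⟨ht1, rc_mono (by omega) (by omega) le_rfl le_rfl ht2⟩)
        exact (a1.trans a2).symm
      have htB := k2.left_mem.2
      rw [mem_rc] at htB
      have key : ∀ c : ℤ, t ∈ gp (X + x) c r → t ∈ gp (X + x) (cl B r c) r := by
        intro c hc
        have hc' : t ∈ rc (X + x) (X + x + r) c (c + r) := hc
        rw [mem_rc] at hc'
        show t ∈ rc (X + x) (X + x + r) (cl B r c) (cl B r c + r)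
        rw [mem_rc]
        unfold cl
        omega
      rcases htG with hG | hG
      · left
        refine ⟨i.toNat, by omega, t, u, k2, ?_, by omega⟩
        rw [e5]
        exact key _ hG
      · right
        refine ⟨i.toNat, by omega, t, u, k2, ?_, by omega⟩
        rw [e5]
        exact key _ hG

/-- Union bound (no assumption on the empty event). -/
theorem union_le (P : PP) (E : ℕ → Set (ℤ × ℤ) → Prop) {e : ℝ} (h : ∀ i, P.p (E i) ≤ e) (M : ℕ) :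
    P.p (fun S => ∃ i : ℕ, i ≤ M ∧ E i S) ≤ (M + 1) * e := by
  induction M with
  | zero =>
    refine (P.mono _ _ ?_).trans ((h 0).trans (by simp))
    rintro S ⟨i, hi, hE⟩
    obtain rfl : i = 0 := by omega
    exact hE
  | succ M ih =>
    refine (P.mono _ (fun S => (∃ i : ℕ, i ≤ M ∧ E i S) ∨ E (M + 1) S) ?_).trans
      ((P.or_le _ _).trans ?_)
    · rintro S ⟨i, hi, hE⟩
      rcases Nat.lt_or_ge M i with h1 | h1
      · obtain rfl : i = M + 1 := by omega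
        exact Or.inr hE
      · exact Or.inl ⟨i, h1, hE⟩
    · have := h (M + 1)
      push_cast
      linarith

theorem l2 : ∀ (P : PP) (c0 : ℝ) (B r : ℤ), 0 < c0 → c0 ≤ 1 → 1 ≤ r → 2000 * r ≤ B →
    c0 ≤ P.L (B - B / 50) B → ARM P (c0 / 5000) (B / 13) r →
    Eps P (B / 13) ≤ (c0 / 5000) ^ 6 → ARM P (c0 / 5000) B r := by
  intro P c0 B r h0 h1 hr hB hL harm0 heps
  by_contra hcon
  have hconW : ¬ ARMW P (c0 / 5000) B r := fun h => hcon (sym P _ B r (by omega) h)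
  obtain ⟨x, y, hx, hxr, hy, hyr, hp⟩ := harm0
  obtain ⟨s, hs⟩ : ∃ s : ℤ, s = B / 13 := ⟨_, rfl⟩
  obtain ⟨k, hk⟩ : ∃ k : ℤ, k = s / 25 := ⟨_, rfl⟩
  obtain ⟨W, hW⟩ : ∃ W : ℤ, W = B - B / 50 := ⟨_, rfl⟩
  obtain ⟨X, hX⟩ : ∃ X : ℤ, X = W - s := ⟨_, rfl⟩
  rw [← hs] at hxr hyr hp heps
  rw [← hW] at hL
  obtain ⟨c', hc'⟩ : ∃ c' : ℝ, c' = c0 / 5000 := ⟨_, rfl⟩
  rw [← hc'] at hconW hp heps
  have hc0 : 0 < c' := by rw [hc']; positivity
  have hc1 : c0 = 5000 * c' := by rw [hc']; ring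
  have hc2 : c' ≤ 1 / 5000 := by rw [hc']; linarith
  -- the four families
  have A1 : P.p (fun S => ∃ i : ℕ, i ≤ 399 ∧ BTc X (X + s) (i * k) (i * k + (s + s / 5)) S) ≤
      ((399 : ℕ) + 1) * c' ^ 6 := by
    refine union_le P (fun i => BTc X (X + s) (i * k) (i * k + (s + s / 5))) ?_ 399
    intro i
    have e : P.p (BTc X (X + s) (i * k) (i * k + (s + s / 5))) = Eps P s := by
      rw [P.B_eq', Eps]; congr 1 <;> ring
    rw [e]; exact heps
  have A2 : P.p (fun S => ∃ i : ℕ, i ≤ 399 ∧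
      Av (G2 s r x y X (i * k)) X (X + s) (i * k) (i * k + Ht s) S) ≤
      ((399 : ℕ) + 1) * (4 * c' ^ 2) := by
    refine union_le P (fun i => Av (G2 s r x y X (i * k)) X (X + s) (i * k) (i * k + Ht s)) ?_ 399
    intro i
    have h2 := l1 P c' s r x y X (i * k) hc0.le (by omega) (by omega) hx hxr hy hyr hp
    have h3 : P.p (Av (G2 s r x y X (i * k)) X (X + s) (i * k) (i * k + Ht s)) * c' ^ 4 ≤
        4 * c' ^ 2 * c' ^ 4 := by
      refine h2.trans ?_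
      have : 4 * c' ^ 2 * c' ^ 4 = 4 * c' ^ 6 := by ring
      rw [this]
      linarith
    exact le_of_mul_le_mul_right h3 (by positivity)
  have hW' : ∀ c : ℤ, P.p (WArm 0 B 0 B (X + x) (cl B r c) r) ≤ c' := by
    intro c
    by_contra h
    push Not at h
    refine hconW ⟨X + x, cl B r c, ?_, ?_, ?_, ?_, h.le⟩
    · unfold cl; omega
    · unfold cl; omega
    · omega
    · omega
  have A3 : P.p (fun S => ∃ i : ℕ, i ≤ 399 ∧
      WArm 0 B 0 B (X + x) (cl B r (i * k + s - y - r - s / 2)) r S) ≤ ((399 : ℕ) + 1) * c' :=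
    union_le P (fun i => WArm 0 B 0 B (X + x) (cl B r (i * k + s - y - r - s / 2)) r)
      (fun i => hW' _) 399
  have A4 : P.p (fun S => ∃ i : ℕ, i ≤ 399 ∧
      WArm 0 B 0 B (X + x) (cl B r (i * k + s - y - r)) r S) ≤ ((399 : ℕ) + 1) * c' :=
    union_le P (fun i => WArm 0 B 0 B (X + x) (cl B r (i * k + s - y - r)) r)
      (fun i => hW' _) 399
  have key : P.p (LRc 0 W 0 B) ≤ _ := P.mono _ _
    (fun S hS => det2 B r s k x y W X hr hB hs hk hW hX S hS)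
  have key2 := key.trans ((P.or_le _ _).trans (add_le_add (P.or_le _ _) (P.or_le _ _)))
  have hL' : c0 ≤ P.p (LRc 0 W 0 B) := hL
  have fin := hL'.trans key2
  have b1 : c' ^ 6 ≤ c' ^ 2 := by
    have : c' ^ 6 = c' ^ 2 * c' ^ 4 := by ring
    rw [this]
    have h4 : c' ^ 4 ≤ 1 := pow_le_one₀ hc0.le (by linarith)
    calc c' ^ 2 * c' ^ 4 ≤ c' ^ 2 * 1 := mul_le_mul_of_nonneg_left h4 (by positivity)
      _ = c' ^ 2 := mul_one _
  have b2 : c' ^ 2 ≤ c' * (1 / 5000) := by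
    rw [sq]; exact mul_le_mul_of_nonneg_left hc2 hc0.le
  push_cast at A1 A2 A3 A4
  rw [hc1] at fin
  linarith

theorem l2Stmt2 : L2Stmt2 := l2

end H935

end Vale.Agent.P159.RSW
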