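import Vale.Agent.P159.RSW.ArmAll

/-!
# RSW: L2 and L3 with separate constants (for the version with input at the top scales)
-/

namespace Vale.Agent.P159.RSW

namespace H935

open Vale.Agent.P145.FB Vale.Agent.P153 Vale.Agent.P153.Topo Relation

/-- (L2) with separate constants: the output constant depends on the crossing at scale `B` only. -/
theorem l2gen (P : PP) (p c : ℝ) (B r : ℤ) (h0 : 0 < p) (hc0 : 0 < c) (hc1 : c ≤ 1) (hr : 1 ≤ r)
    (hB : 2000 * r ≤ B) (hL : p ≤ P.L (B - B / 50) B) (harm0 : ARM P c (B / 13) r)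
    (heps : 4000 * Eps P (B / 13) ≤ p * c ^ 4) : ARM P (p / 5000) B r := by
  by_contra hcon
  have hconW : ¬ ARMW P (p / 5000) B r := fun h => hcon (sym P _ B r (by omega) h)
  obtain ⟨x, y, hx, hxr, hy, hyr, hp⟩ := harm0
  obtain ⟨s, hs⟩ : ∃ s : ℤ, s = B / 13 := ⟨_, rfl⟩
  obtain ⟨k, hk⟩ : ∃ k : ℤ, k = s / 25 := ⟨_, rfl⟩
  obtain ⟨W, hW⟩ : ∃ W : ℤ, W = B - B / 50 := ⟨_, rfl⟩
  obtain ⟨X, hX⟩ : ∃ X : ℤ, X = W - s := ⟨_, rfl⟩
  rw [← hs] at hxr hyr hp heps
  rw [← hW] at hL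
  have hE0 : 0 ≤ Eps P s := P.nonneg _
  have hc4 : 0 < c ^ 4 := by positivity
  have hc41 : c ^ 4 ≤ 1 := pow_le_one₀ hc0.le hc1
  have hEp : 4000 * Eps P s ≤ p := heps.trans (by
    calc p * c ^ 4 ≤ p * 1 := mul_le_mul_of_nonneg_left hc41 h0.le
      _ = p := mul_one p)
  -- the four families
  have A1 : P.p (fun S => ∃ i : ℕ, i ≤ 399 ∧ BTc X (X + s) (i * k) (i * k + (s + s / 5)) S) ≤
      ((399 : ℕ) + 1) * Eps P s := by
    refine union_le P (fun i => BTc X (X + s) (i * k) (i * k + (s + s / 5))) ?_ 399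
    intro i
    have e : P.p (BTc X (X + s) (i * k) (i * k + (s + s / 5))) = Eps P s := by
      rw [P.B_eq', Eps]; congr 1 <;> ring
    rw [e]
  have A2 : P.p (fun S => ∃ i : ℕ, i ≤ 399 ∧
      Av (G2 s r x y X (i * k)) X (X + s) (i * k) (i * k + Ht s) S) ≤
      ((399 : ℕ) + 1) * (p / 1000) := by
    refine union_le P (fun i => Av (G2 s r x y X (i * k)) X (X + s) (i * k) (i * k + Ht s)) ?_ 399
    intro i
    have h2 := l1 P c s r x y X (i * k) hc0.le (by omega) (by omega) hx hxr hy hyr hp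
    have h3 : P.p (Av (G2 s r x y X (i * k)) X (X + s) (i * k) (i * k + Ht s)) * c ^ 4 ≤
        p / 1000 * c ^ 4 := by linarith
    exact le_of_mul_le_mul_right h3 hc4
  have hW' : ∀ c : ℤ, P.p (WArm 0 B 0 B (X + x) (cl B r c) r) ≤ p / 5000 := by
    intro c
    by_contra h
    push Not at h
    refine hconW ⟨X + x, cl B r c, ?_, ?_, ?_, ?_, h.le⟩
    · unfold cl; omega
    · unfold cl; omega
    · omega
    · omega
  have A3 : P.p (fun S => ∃ i : ℕ, i ≤ 399 ∧
      WArm 0 B 0 B (X + x) (cl B r (i * k + s - y - r - s / 2)) r S) ≤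
      ((399 : ℕ) + 1) * (p / 5000) :=
    union_le P (fun i => WArm 0 B 0 B (X + x) (cl B r (i * k + s - y - r - s / 2)) r)
      (fun i => hW' _) 399
  have A4 : P.p (fun S => ∃ i : ℕ, i ≤ 399 ∧
      WArm 0 B 0 B (X + x) (cl B r (i * k + s - y - r)) r S) ≤ ((399 : ℕ) + 1) * (p / 5000) :=
    union_le P (fun i => WArm 0 B 0 B (X + x) (cl B r (i * k + s - y - r)) r)
      (fun i => hW' _) 399
  have key : P.p (LRc 0 W 0 B) ≤ _ := P.mono _ _
    (fun S hS => det2 B r s k x y W X hr hB hs hk hW hX S hS)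
  have key2 := key.trans ((P.or_le _ _).trans (add_le_add (P.or_le _ _) (P.or_le _ _)))
  have hL' : p ≤ P.p (LRc 0 W 0 B) := hL
  have fin := hL'.trans key2
  push_cast at A1 A2 A3 A4
  linarith

/-- (L3) is already of this form. -/
theorem l3gen (P : PP) (p : ℝ) (B r : ℤ) (h0 : 0 < p) (hr : 1 ≤ r) (hB : 20 * r ≤ B)
    (hB2 : B < 2000 * r) (hL : p ≤ P.L (B - B / 50) B) : ARM P (p / 5000) B r :=
  l3Stmt2 P p B r h0 hr hB hB2 hL

/-- Arms at the intermediate scales `20 r ≤ B ≤ N`, constant `p / 5000`, from near-squares with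
constant `p` at all scales in `(r, N]`. -/
theorem armMid (P : PP) (p : ℝ) (r N : ℤ) (h0 : 0 < p) (hp1 : p ≤ 1) (hr : 1 ≤ r)
    (hsq : ∀ s, r < s → s ≤ N → p ≤ P.L s (s + s / 50))
    (heps : ∀ s, r < s → s ≤ N → 4000 * Eps P s ≤ p * (p / 5000) ^ 4) :
    ∀ B, 20 * r ≤ B → B ≤ N → ARM P (p / 5000) B r := by
  have key : ∀ n : ℕ, ∀ B : ℤ, B ≤ n → 20 * r ≤ B → B ≤ N → ARM P (p / 5000) B r := by
    intro n
    induction n with
    | zero =>
      intro B h1 h2' _
      exfalso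
      push_cast at h1
      omega
    | succ n ih =>
      intro B hBn hB hBN
      have hW : p ≤ P.L (B - B / 50) B := by
        have h4 := hsq (B - B / 50) (by omega) (by omega)
        exact h4.trans (P.L_mono geo (by omega) le_rfl (by omega))
      rcases lt_or_ge B (2000 * r) with h5 | h5
      · exact l3gen P p B r h0 hr hB h5 hW
      · refine l2gen P p (p / 5000) B r h0 (by positivity) (by linarith) hr h5 hW ?_ ?_
        · exact ih (B / 13) (by push_cast at hBn; omega) (by omega) (by omega)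
        · exact heps (B / 13) (by omega) (by omega)
  intro B hB hBN
  exact key B.toNat B (by omega) hB hBN

/-- **Healing**: the arm at the top scale has the constant of the top scale. -/
theorem armTopStep (P : PP) (c0 p : ℝ) (r N : ℤ) (hc0 : 0 < c0) (h0 : 0 < p) (hp1 : p ≤ 1)
    (hpc : p ≤ c0) (hr : 1 ≤ r) (hN : 2000 * r ≤ N)
    (htop : c0 ≤ P.L (N - N / 50) N)
    (hsq : ∀ s, r < s → s ≤ N → p ≤ P.L s (s + s / 50))
    (heps : ∀ s, r < s → s ≤ N → 4000 * Eps P s ≤ p * (p / 5000) ^ 4) :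
    ARM P (c0 / 5000) N r := by
  refine l2gen P c0 (p / 5000) N r hc0 (by positivity) (by linarith) hr hN htop ?_ ?_
  · exact armMid P p r N h0 hp1 hr hsq heps (N / 13) (by omega) (by omega)
  · refine (heps (N / 13) (by omega) (by omega)).trans ?_
    exact mul_le_mul_of_nonneg_right hpc (by positivity)

end H935

end Vale.Agent.P159.RSW
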