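import Vale.Agent.P159.RSW.Spec2

/-!
# RSW, row (L5): from ratio 6/5 to ratio 4 by means of easy crossings
-/

namespace Vale.Agent.P159.RSW

open Vale.Agent.P145.FB

/-- Two crossings of rectangles of height `h` joined by a vertical crossing of their common part
of width `o`. -/
theorem L_chainO (P : PP) (G : Geo) {c0 : ℝ} (h0 : 0 ≤ c0) {w w' h o : ℤ} (hh : 0 ≤ h)
    (ho : 0 ≤ o) (hsq : c0 ≤ P.L h o) (hw : o ≤ w) (hw' : o ≤ w') {a b : ℝ} (ha : 0 ≤ a)
    (hb : 0 ≤ b) (hwa : a ≤ P.L w h) (hwb : b ≤ P.L w' h) : a * c0 * b ≤ P.L (w + w' - o) h := by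
  refine P.fkg3 (IL_LRc 0 w 0 h) (IL_BTc (w - o) w 0 h) (IL_LRc (w - o) (w + w' - o) 0 h)
    (fun S h1 h2 h3 => G.chain 0 (w - o) w (w + w' - o) 0 h S (by omega) (by omega) (by omega)
      hh h1 h2 h3) ha h0 hb ?_ ?_ ?_
  · rw [P.L_eq']; simpa using hwa
  · rw [P.B_eq']
    have e : w - (w - o) = o := by ring
    rw [e]; simpa using hsq
  · rw [P.L_eq']
    have e : w + w' - o - (w - o) = w' := by ring
    rw [e]; simpa using hwb

/-- Iterated chain: the width grows by `w - o` in every step. -/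
theorem L_iterO (P : PP) (G : Geo) {c0 : ℝ} (h0 : 0 ≤ c0) {w h o : ℤ} (hh : 0 ≤ h)
    (ho : 0 ≤ o) (hsq : c0 ≤ P.L h o) (hw : o ≤ w) {a : ℝ} (ha : 0 ≤ a) (hwa : a ≤ P.L w h)
    (j : ℕ) : a * (c0 * a) ^ j ≤ P.L (w + (j : ℤ) * (w - o)) h := by
  induction j with
  | zero => simpa using hwa
  | succ j ih =>
    have h1 : 0 ≤ a * (c0 * a) ^ j := mul_nonneg ha (pow_nonneg (mul_nonneg h0 ha) _)
    have h2 : 0 ≤ (j : ℤ) * (w - o) := mul_nonneg (Int.natCast_nonneg _) (by omega)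
    have := L_chainO P G h0 hh ho hsq (w := w + (j : ℤ) * (w - o)) (w' := w) (by omega) hw
      h1 ha ih hwa
    have e : w + (j : ℤ) * (w - o) + w - o = w + ((j + 1 : ℕ) : ℤ) * (w - o) := by
      push_cast; ring
    rw [e] at this
    calc a * (c0 * a) ^ (j + 1) = a * (c0 * a) ^ j * c0 * a := by ring
      _ ≤ _ := this

/-- (L5), the form with easy crossings. -/
theorem l5core (P : PP) (c0 a : ℝ) (r : ℤ) (h0 : 0 ≤ c0) (ha : 0 ≤ a) (hr : 20 ≤ r)
    (hsq : c0 ≤ P.L r (r + r / 50)) (hE : a ≤ Eps P r) :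
    a * (c0 * a) ^ 19 ≤ P.L (4 * r) r := by
  have h1 := L_iterO P geo h0 (w := r + r / 5) (h := r) (o := r + r / 50) (by omega) (by omega)
    hsq (by omega) ha hE 19
  refine h1.trans (P.L_mono geo (by omega) ?_ le_rfl)
  push_cast
  omega

theorem l5 : L5Stmt2 := fun P c0 a r h0 ha hr hsq hE => l5core P c0 a r h0 ha hr hsq hE

end Vale.Agent.P159.RSW
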