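import Vale.Agent.P145.FB.Tassion2
import Vale.Agent.P145.FB.Geo

/-!
# RSW from FKG, symmetries and squares at all scales: frozen statements

Letters of `P145/FB`: `PP` (a percolation of the fine lattice with FKG, shifts, reflections, swap),
`rc a b c d = [2a, 2b] × [2c, 2d]`, `NC S x y` (nearest-neighbour path inside `S`),
`P.L w h` = probability of a left-right crossing of a `w × h` rectangle.
-/

namespace Vale.Agent.P159.RSW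

open Vale.Agent.P145.FB

/-- A gap: the box `[2x, 2x + 2r] × [2y, 2y + 2r]`. -/
def gp (x y r : ℤ) : Set (ℤ × ℤ) := rc x (x + r) y (y + r)

/-- A path of `S` in `rc a b c d` from a point of the gap to the left side. -/
def WArm (a b c d x y r : ℤ) (S : Set (ℤ × ℤ)) : Prop :=
  ∃ u v, NC (S ∩ rc a b c d) u v ∧ u ∈ gp x y r ∧ v.1 = 2 * a

/-- A path of `S` in `rc a b c d` from a point of the gap to the top side. -/
def NArm (a b c d x y r : ℤ) (S : Set (ℤ × ℤ)) : Prop :=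
  ∃ u v, NC (S ∩ rc a b c d) u v ∧ u ∈ gp x y r ∧ v.2 = 2 * d

/-- A path of `S` in `rc a b c d` from a point of the gap to the bottom side. -/
def SArm (a b c d x y r : ℤ) (S : Set (ℤ × ℤ)) : Prop :=
  ∃ u v, NC (S ∩ rc a b c d) u v ∧ u ∈ gp x y r ∧ v.2 = 2 * c

/-- A left-right crossing of `rc a b c d` by `S` which avoids the set `G`. -/
def Av (G : Set (ℤ × ℤ)) (a b c d : ℤ) (S : Set (ℤ × ℤ)) : Prop :=
  ∃ u v, NC (S ∩ (rc a b c d ∩ Gᶜ)) u v ∧ u.1 = 2 * a ∧ v.1 = 2 * b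

/-- Some gap of size `r` near the bottom of the square `[0, B]²` is joined to the top. -/
def ARM (P : PP) (c : ℝ) (B r : ℤ) : Prop :=
  ∃ x y : ℤ, 0 ≤ x ∧ x + r ≤ B ∧ 0 ≤ y ∧ 10 * (y + r) ≤ B ∧ c ≤ P.p (NArm 0 B 0 B x y r)

/-- The same with a gap near the right side joined to the left side. -/
def ARMW (P : PP) (c : ℝ) (B r : ℤ) : Prop :=
  ∃ x y : ℤ, 0 ≤ y ∧ y + r ≤ B ∧ x + r ≤ B ∧ 10 * (B - x) ≤ B ∧ c ≤ P.p (WArm 0 B 0 B x y r)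

/-- The long crossing of ratio `6/5`. -/
noncomputable def Eps (P : PP) (s : ℤ) : ℝ := P.L (s + s / 5) s

/-- Height of the windows, about `1.28 B`. -/
def Ht (B : ℤ) : ℤ := B + B / 5 + 2 * (B / 25)

/-- The two gaps of the window `[X, X+B] × [Y, Y + Ht B]`, `(x, y)` = offsets of `ARM P c B r`. -/
def G2 (B r x y X Y : ℤ) : Set (ℤ × ℤ) :=
  gp (X + x) (Y + B - y - r - B / 2) r ∪ gp (X + x) (Y + B - y - r) r

/-- (L1): every crossing of the window visits one of its two gaps, up to long crossings. -/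
def L1Stmt : Prop := ∀ (P : PP) (c : ℝ) (B r x y X Y : ℤ), 0 ≤ c → 10 ≤ B → 0 ≤ r → 0 ≤ x →
  x + r ≤ B → 0 ≤ y → 10 * (y + r) ≤ B → c ≤ P.p (NArm 0 B 0 B x y r) →
  P.p (Av (G2 B r x y X Y) X (X + B) Y (Y + Ht B)) * c ^ 4 ≤ 4 * Eps P B

/-- (SYM): swap + reflection. -/
def SymStmt : Prop := ∀ (P : PP) (c : ℝ) (B r : ℤ), 0 ≤ r → ARMW P c B r → ARM P c B r

/-- (L2) -/
def L2Stmt : Prop := ∀ (P : PP) (c0 : ℝ) (B r : ℤ), 0 < c0 → c0 ≤ 1 → 1 ≤ r → 2000 * r ≤ B →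
  c0 ≤ P.L B B → ARM P (c0 / 5000) (B / 10) r → Eps P (B / 10) ≤ (c0 / 5000) ^ 6 →
  ARM P (c0 / 5000) B r

/-- (L3) -/
def L3Stmt : Prop := ∀ (P : PP) (c0 : ℝ) (B r : ℤ), 0 < c0 → 1 ≤ r → 10 * r ≤ B →
  B < 2000 * r → c0 ≤ P.L B B → ARM P (c0 / 5000) B r

/-- (L23): arms at all scales above `r`. -/
def ArmAll : Prop := ∀ (P : PP) (c0 : ℝ) (r N : ℤ), 0 < c0 → 1 ≤ r →
  (∀ s, 1 ≤ s → s ≤ N → c0 ≤ P.L s s) → (∀ s, r < s → s ≤ N → Eps P s ≤ (c0 / 5000) ^ 6) →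
  ∀ B, 10 * r ≤ B → B ≤ N → ARM P (c0 / 5000) B r

/-- (L4): two opposite arms and a circuit around the gap. -/
def L4Stmt : Prop := ∀ (P : PP) (c cA : ℝ) (B r t : ℤ), 0 ≤ c → 0 ≤ cA → 0 ≤ r → r ≤ t → 0 < t →
  40 * t ≤ B → ARM P c B r → cA ≤ P.p (Ann 0 0 t) → c ^ 2 * cA ≤ P.L (B + B / 2) (B + 4 * t)

/-- (L5): from ratio 6/5 to ratio 4. -/
def L5Stmt : Prop := ∀ (P : PP) (c0 a : ℝ) (r : ℤ), 0 ≤ c0 → 0 ≤ a → 20 ≤ r → c0 ≤ P.L r r →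
  a ≤ Eps P r → a * (c0 * a) ^ 19 ≤ P.L (4 * r) r

/-- **RSW**: positive association, symmetries, squares of all sides `1 ≤ s ≤ N`. -/
def RSWStmt : Prop := ∀ c0 c1 : ℝ, 0 < c0 → 0 < c1 → ∃ c : ℝ, 0 < c ∧ ∀ (P : PP) (N : ℤ),
  (∀ s, 1 ≤ s → s ≤ N → c0 ≤ P.L s s) → c1 ≤ P.L 80 20 →
  ∀ n, 20 ≤ n → n ≤ N → c ≤ P.L (4 * n) n ∧ ∀ p q : ℤ, c ≤ P.p (Ann p q n)

/-- The last step: everything from `ArmAll`, `L4Stmt`, `L5Stmt`. -/
def FinStmt : Prop := ArmAll → L4Stmt → L5Stmt → RSWStmt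

end Vale.Agent.P159.RSW
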