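import Vale.Agent.P159.RSW.Down
import Vale.Agent.P159.RSW.Fin3
import Vale.Agent.P159.RSW.L4

/-!
# RSW with input in a bounded window of scales at the top: final forms
-/

namespace Vale.Agent.P159.RSW

open Vale.Agent.P145.FB Vale.Agent.P159.TM.H121

/-- **RSW, version 3** (near-squares of sides `N / 10000 ≤ s ≤ N`). -/
theorem rsw3 : RSWStmt3 := H460.fin3 H885.armTop l4 l5

/-- **RSW from easy crossings in the window** `N / 10000 ≤ t ≤ N + N / 100`. -/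
theorem rsw_easy {p1 c1 : ℝ} (hp1 : 0 < p1) (hc1 : 0 < c1) : ∃ c : ℝ, 0 < c ∧
    ∀ (P : PP) (N : ℤ), c1 ≤ P.L 1 0 → 1 ≤ N →
      (∀ t, N ≤ 10000 * t → t ≤ N + N / 100 → p1 ≤ P.L t (4 * t)) →
      c ≤ P.L (4 * N) N ∧ ∀ p q : ℤ, c ≤ P.p (Ann p q N) := by
  obtain ⟨c, hc, h⟩ := rsw3 (min (p1 / 4000) (c1 ^ 400)) c1 (by positivity) hc1
  refine ⟨c, hc, fun P N h1 hN h2 => h P N h1 hN fun s h3 h4 => ?_⟩
  exact step_one P hc1 h1 (by omega) (h2 (s + s / 100) (by omega) (by omega))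

/-- **RSW from arms in the window**: an open path from the box of half side `t` to its translate
by `(3t, 0)`. -/
theorem rsw_top {p1 c1 : ℝ} (hp1 : 0 < p1) (hc1 : 0 < c1) : ∃ c : ℝ, 0 < c ∧
    ∀ (P : PP) (N : ℤ), c1 ≤ P.L 1 0 → 1 ≤ N →
      (∀ t, N ≤ 10000 * t → t ≤ N + N / 100 → p1 ≤ P.p (Tr t)) →
      c ≤ P.L (4 * N) N ∧ ∀ p q : ℤ, c ≤ P.p (Ann p q N) := by
  obtain ⟨c, hc, h⟩ := rsw_easy (p1 := p1 / 4) (by positivity) hc1
  refine ⟨c, hc, fun P N h1 hN h2 => h P N h1 hN fun t h3 h4 => ?_⟩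
  exact easy_of_tr P (by omega) (h2 t h3 h4)

end Vale.Agent.P159.RSW
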