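import Vale.Agent.P159.RSW.Fin3
import Vale.Agent.P159.RSW.L4
import Vale.Agent.P159.RSW.L5
import Vale.Agent.P159.RSW.Step0
import Vale.Agent.P159.TM.H121.Out

/-!
# RSW from arms between neighbouring boxes at the scales `N / 10000 ≤ t ≤ N`
-/

namespace Vale.Agent.P159.RSW

open Vale.Agent.P145.FB

/-- Step 0 at one scale. -/
theorem step_at (P : PP) {p1 c1 : ℝ} (h1 : 0 < p1) (hc1 : 0 < c1) (hL : c1 ≤ P.L 1 0) {t : ℤ}
    (ht : 1 ≤ t) (h : p1 ≤ P.L t (4 * t)) :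
    min (p1 / 4000) (c1 ^ 400) ≤ P.L t (t + t / 50) := by
  rcases lt_or_ge t 100 with hlt | hge
  · refine (min_le_right _ _).trans ?_
    obtain ⟨n, hn⟩ := Int.eq_ofNat_of_zero_le (show 0 ≤ t - 1 by omega)
    have hle1 : c1 ≤ 1 := hL.trans (P.le_one _)
    have e : t = (n : ℤ) + 1 := by omega
    have h1 := L_seg P hc1.le hL n
    have h2 : c1 ^ 400 ≤ c1 ^ (n + 1) := pow_le_pow_of_le_one hc1.le hle1 (by omega)
    have h3 : P.L ((n : ℤ) + 1) 0 ≤ P.L t (t + t / 50) := by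
      rw [e]
      exact P.L_mono geo (by omega) le_rfl (by omega)
    linarith
  · refine (min_le_left _ _).trans ?_
    obtain ⟨k, hk⟩ : ∃ k, k = t / 100 := ⟨_, rfl⟩
    have hk1 : 1 ≤ k := by omega
    have hn : 4 * t < ((800 : ℕ) + 1) * k := by push_cast; omega
    set b := P.L t (t + t / 50) with hb
    have h2 := P.mono (LRc 0 t 0 (4 * t)) (fun S => ∃ i : ℕ, i ≤ 800 ∧
      (LRc 0 t (i * k) (i * k + (t + 2 * k)) S ∨ BTc 0 t ((i + 1) * k) ((i + 1) * k + t) S))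
      (fun S hS => dich hk1 (by omega) hn hS)
    have h3 := ex_le P (fun i S => LRc 0 t (i * k) (i * k + (t + 2 * k)) S ∨
      BTc 0 t ((i + 1) * k) ((i + 1) * k + t) S) (a := 2 * b) 800 (by
        intro i _
        refine (P.or_le _ _).trans ?_
        have a1 : P.p (LRc 0 t (i * k) (i * k + (t + 2 * k))) ≤ b := by
          rw [P.L_eq']
          exact P.L_mono geo (by omega) (by omega) (by omega)
        have a2 : P.p (BTc 0 t ((i + 1) * k) ((i + 1) * k + t)) ≤ b := by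
          rw [P.B_eq']
          exact P.L_mono geo (by omega) (by omega) (by omega)
        have a3 : P.p (fun S => LRc 0 t (i * k) (i * k + (t + 2 * k)) S) =
          P.p (LRc 0 t (i * k) (i * k + (t + 2 * k))) := rfl
        have a4 : P.p (fun S => BTc 0 t ((i + 1) * k) ((i + 1) * k + t) S) =
          P.p (BTc 0 t ((i + 1) * k) ((i + 1) * k + t)) := rfl
        rw [a3, a4]
        linarith)
    have h4 : P.p (LRc 0 t 0 (4 * t)) = P.L t (4 * t) := rfl
    rw [h4] at h2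
    have hb0 : 0 ≤ b := P.L_nonneg _ _
    have h5 := h2.trans h3
    push_cast at h5
    linarith

/-- **RSW from arms at the top scales**, given `RSWStmt3`. -/
theorem rsw_top_of (H3 : RSWStmt3) (p1 c1 : ℝ) (h1 : 0 < p1) (hc1 : 0 < c1) : ∃ c : ℝ, 0 < c ∧
    ∀ (P : PP) (N : ℤ), c1 ≤ P.L 1 0 → 1 ≤ N →
      (∀ t, 1 ≤ t → N ≤ 10000 * t → t ≤ N → p1 ≤ P.p (TM.H121.Tr t)) →
      c ≤ P.L (4 * N) N ∧ ∀ p q : ℤ, c ≤ P.p (Ann p q N) := by
  obtain ⟨c, hc, H⟩ := H3 (min (p1 / 4 / 4000) (c1 ^ 400)) c1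
    (lt_min (by positivity) (by positivity)) hc1
  refine ⟨c, hc, fun P N hL hN hT => H P N hL hN fun s hs hsN => ?_⟩
  exact step_at P (by positivity) hc1 hL (by omega)
    (TM.H121.easy_of_tr P (by omega) (hT s (by omega) hs hsN))

/-- The same from easy crossings at the top scales. -/
theorem rsw_top_easy_of (H3 : RSWStmt3) (p1 c1 : ℝ) (h1 : 0 < p1) (hc1 : 0 < c1) :
    ∃ c : ℝ, 0 < c ∧ ∀ (P : PP) (N : ℤ), c1 ≤ P.L 1 0 → 1 ≤ N →
      (∀ t, 1 ≤ t → N ≤ 10000 * t → t ≤ N → p1 ≤ P.L t (4 * t)) →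
      c ≤ P.L (4 * N) N ∧ ∀ p q : ℤ, c ≤ P.p (Ann p q N) := by
  obtain ⟨c, hc, H⟩ := H3 (min (p1 / 4000) (c1 ^ 400)) c1
    (lt_min (by positivity) (by positivity)) hc1
  refine ⟨c, hc, fun P N hL hN hT => H P N hL hN fun s hs hsN => ?_⟩
  exact step_at P h1 hc1 hL (by omega) (hT s (by omega) hs hsN)

/-- `RSWStmt3` from the arm at the top scale. -/
theorem rsw3_of (hA : ArmTop) : RSWStmt3 := H460.fin3 hA l4 l5

end Vale.Agent.P159.RSW
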