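import Vale.Agent.P159.RSW.ArmAll
import Vale.Agent.P159.RSW.Fin
import Vale.Agent.P159.RSW.L4
import Vale.Agent.P159.RSW.Step0
import Vale.Agent.P159.TM.H121.Out

/-!
# RSW from easy crossings in the window `[n / 20, n]` of scales only

Downward induction on the size of the gap: the arm of a gap of size `r` at the top scale gives the
easy crossing of the scale `r`, with a constant which does not depend on `r`.
-/

namespace Vale.Agent.P159.RSW

namespace H112

open Vale.Agent.P145.FB H935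

/-- (L2) with separate constants: `p` for the crossing at the scale `B`, `c'` for the arm at the
scale `B / 13`. The new constant depends on `p` only. -/
theorem l2gen (P : PP) (c0 c' : ℝ) (B r : ℤ) (hc0 : 0 < c') (hcc : 5000 * c' ≤ c0) (h1 : c0 ≤ 1)
    (hr : 1 ≤ r) (hB : 2000 * r ≤ B) (hL : c0 ≤ P.L (B - B / 50) B)
    (harm0 : ARM P c' (B / 13) r) (heps : Eps P (B / 13) ≤ c' ^ 6) :
    ARM P (c0 / 5000) B r := by
  by_contra hcon
  have hconW : ¬ ARMW P (c0 / 5000) B r := fun h => hcon (sym P _ B r (by omega) h)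
  obtain ⟨x, y, hx, hxr, hy, hyr, hp⟩ := harm0
  obtain ⟨s, hs⟩ : ∃ s : ℤ, s = B / 13 := ⟨_, rfl⟩
  obtain ⟨k, hk⟩ : ∃ k : ℤ, k = s / 25 := ⟨_, rfl⟩
  obtain ⟨W, hW⟩ : ∃ W : ℤ, W = B - B / 50 := ⟨_, rfl⟩
  obtain ⟨X, hX⟩ : ∃ X : ℤ, X = W - s := ⟨_, rfl⟩
  rw [← hs] at hxr hyr hp heps
  rw [← hW] at hL
  have hc2 : c' ≤ 1 / 5000 := by linarith
  -- the four families
  have A1 : P.p (fun S => ∃ i : ℕ, i ≤ 399 ∧ BTc X (X + s) (i * k) (i * k + (s + s / 5)) S) ≤
      ((399 : ℕ) + 1) * c' ^ 6 := by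
    refine union_le P (fun i => BTc X (X + s) (i * k) (i * k + (s + s / 5))) ?_ 399
    intro i
    have e : P.p (BTc X (X + s) (i * k) (i * k + (s + s / 5))) = Eps P s := by
      rw [P.B_eq', Eps]; congr 1 <;> ring
    rw [e]; exact heps
  have A2 : P.p (fun S => ∃ i : ℕ, i ≤ 399 ∧
      Av (G2 s r x y X (i * k)) X (X + s) (i * k) (i * k + Ht s) S) ≤
      ((399 : ℕ) + 1) * (4 * c' ^ 2) := by
    refine union_le P (fun i => Av (G2 s r x y X (i * k)) X (X + s) (i * k) (i * k + Ht s)) ?_ 399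
    intro i
    have h2 := l1 P c' s r x y X (i * k) hc0.le (by omega) (by omega) hx hxr hy hyr hp
    have h3 : P.p (Av (G2 s r x y X (i * k)) X (X + s) (i * k) (i * k + Ht s)) * c' ^ 4 ≤
        4 * c' ^ 2 * c' ^ 4 := by
      refine h2.trans ?_
      have : 4 * c' ^ 2 * c' ^ 4 = 4 * c' ^ 6 := by ring
      rw [this]
      linarith
    exact le_of_mul_le_mul_right h3 (by positivity)
  have hW' : ∀ c : ℤ, P.p (WArm 0 B 0 B (X + x) (cl B r c) r) ≤ c0 / 5000 := by
    intro c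
    by_contra h
    push Not at h
    refine hconW ⟨X + x, cl B r c, ?_, ?_, ?_, ?_, h.le⟩
    · unfold cl; omega
    · unfold cl; omega
    · omega
    · omega
  have A3 : P.p (fun S => ∃ i : ℕ, i ≤ 399 ∧
      WArm 0 B 0 B (X + x) (cl B r (i * k + s - y - r - s / 2)) r S) ≤
      ((399 : ℕ) + 1) * (c0 / 5000) :=
    union_le P (fun i => WArm 0 B 0 B (X + x) (cl B r (i * k + s - y - r - s / 2)) r)
      (fun i => hW' _) 399
  have A4 : P.p (fun S => ∃ i : ℕ, i ≤ 399 ∧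
      WArm 0 B 0 B (X + x) (cl B r (i * k + s - y - r)) r S) ≤ ((399 : ℕ) + 1) * (c0 / 5000) :=
    union_le P (fun i => WArm 0 B 0 B (X + x) (cl B r (i * k + s - y - r)) r)
      (fun i => hW' _) 399
  have key : P.p (LRc 0 W 0 B) ≤ _ := P.mono _ _
    (fun S hS => det2 B r s k x y W X hr hB hs hk hW hX S hS)
  have key2 := key.trans ((P.or_le _ _).trans (add_le_add (P.or_le _ _) (P.or_le _ _)))
  have hL' : c0 ≤ P.p (LRc 0 W 0 B) := hL
  have fin := hL'.trans key2
  have b1 : c' ^ 6 ≤ c' ^ 2 := by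
    have : c' ^ 6 = c' ^ 2 * c' ^ 4 := by ring
    rw [this]
    have h4 : c' ^ 4 ≤ 1 := pow_le_one₀ hc0.le (by linarith)
    calc c' ^ 2 * c' ^ 4 ≤ c' ^ 2 * 1 := mul_le_mul_of_nonneg_left h4 (by positivity)
      _ = c' ^ 2 := mul_one _
  have b2 : c' ^ 2 ≤ c' * (1 / 5000) := by
    rw [sq]; exact mul_le_mul_of_nonneg_left hc2 hc0.le
  push_cast at A1 A2 A3 A4
  linarith

/-- Arms of a gap of size `r` at all scales, from near-squares at the scales above `r`. -/
theorem armAll (P : PP) (c0 : ℝ) (r N : ℤ) (h0 : 0 < c0) (hr : 1 ≤ r)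
    (hsq : ∀ s, r < s → s ≤ N → c0 ≤ P.L s (s + s / 50))
    (heps : ∀ s, r < s → s ≤ N → Eps P s ≤ (c0 / 5000) ^ 6) :
    ∀ B, 20 * r ≤ B → B ≤ N → ARM P (c0 / 5000) B r := by
  have key : ∀ n : ℕ, ∀ B : ℤ, B ≤ n → 20 * r ≤ B → B ≤ N → ARM P (c0 / 5000) B r := by
    intro n
    induction n with
    | zero =>
      intro B h1 h2' _
      exfalso
      push_cast at h1
      omega
    | succ n ih =>
      intro B hBn hB hBN
      have hW : c0 ≤ P.L (B - B / 50) B := by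
        have h4 := hsq (B - B / 50) (by omega) (by omega)
        refine h4.trans (P.L_mono geo (by omega) le_rfl (by omega))
      rcases lt_or_ge B (2000 * r) with h5 | h5
      · exact l3Stmt2 P c0 B r h0 hr hB h5 hW
      · refine l2Stmt2 P c0 B r h0 (hW.trans (P.le_one _)) hr h5 hW ?_ ?_
        · exact ih (B / 13) (by push_cast at hBn; omega) (by omega) (by omega)
        · exact heps (B / 13) (by omega) (by omega)
  intro B hB hBN
  exact key B.toNat B (by omega) hB hBN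

/-- The arm at the top scale: its constant depends on the crossing at the top scale only. -/
theorem armTop (P : PP) (p q : ℝ) (r n : ℤ) (h0 : 0 < q) (hqp : q ≤ p) (hr : 1 ≤ r)
    (hn : 20 * r ≤ n) (htop : p ≤ P.L (n - n / 50) n)
    (hsq : ∀ s, r < s → s ≤ n → q ≤ P.L s (s + s / 50))
    (heps : ∀ s, r < s → s ≤ n → Eps P s ≤ (q / 5000) ^ 6) :
    ARM P (p / 5000) n r := by
  rcases lt_or_ge n (2000 * r) with h5 | h5
  · exact l3Stmt2 P p n r (by linarith) hr hn h5 htop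
  · exact l2gen P p (q / 5000) n r (by positivity) (by linarith) (htop.trans (P.le_one _)) hr h5
      htop (armAll P q r n h0 hr hsq heps (n / 13) (by omega) (by omega))
      (heps (n / 13) (by omega) (by omega))

/-- A point of an arm is a point of an exit of a box. -/
theorem out_of_arm (P : PP) {c : ℝ} {B r : ℤ} (_hr : 1 ≤ r) (hB : 20 * r ≤ B)
    (h : ARM P c B r) : c ≤ P.p (Vale.Agent.P159.TM.H121.Out r) := by
  obtain ⟨x, y, hx, hxr, hy, hyr, hp⟩ := h
  have e := p_NArm_shift P 0 B 0 B x y r (-x) (-y)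
  rw [← e] at hp
  refine hp.trans (P.mono _ _ ?_)
  rintro S ⟨u, v, huv, hu, hv⟩
  refine ⟨u, v, huv.mono Set.inter_subset_left, ?_, ?_⟩
  · have hu' : u ∈ rc (x + -x) (x + -x + r) (y + -y) (y + -y + r) := hu
    rw [mem_rc] at hu' ⊢
    omega
  · unfold Vale.Agent.P159.TM.H121.nrm
    omega

/-- Step 0 at one scale. -/
theorem step_pt (P : PP) (p1 c1 : ℝ) (hc1 : 0 < c1) (hc : c1 ≤ P.L 1 0)
    (t : ℤ) (ht : 1 ≤ t) (h1 : p1 ≤ P.L t (4 * t)) :
    min (p1 / 4000) (c1 ^ 400) ≤ P.L t (t + t / 50) := by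
  rcases lt_or_ge t 100 with hlt | hge
  · refine (min_le_right _ _).trans ?_
    obtain ⟨n, hn⟩ := Int.eq_ofNat_of_zero_le (show 0 ≤ t - 1 by omega)
    have hle1 : c1 ≤ 1 := hc.trans (P.le_one _)
    have e : t = (n : ℤ) + 1 := by omega
    have h1 := L_seg P hc1.le hc n
    have h2 : c1 ^ 400 ≤ c1 ^ (n + 1) := pow_le_pow_of_le_one hc1.le hle1 (by omega)
    have h3 : P.L ((n : ℤ) + 1) 0 ≤ P.L t (t + t / 50) := by
      rw [e]
      exact P.L_mono geo (by omega) le_rfl (by omega)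
    linarith
  · refine (min_le_left _ _).trans ?_
    obtain ⟨k, hk⟩ : ∃ k, k = t / 100 := ⟨_, rfl⟩
    have hk1 : 1 ≤ k := by omega
    have hn : 4 * t < ((800 : ℕ) + 1) * k := by push_cast; omega
    set b := P.L t (t + t / 50) with hb
    have h2 := P.mono (LRc 0 t 0 (4 * t)) (fun S => ∃ i : ℕ, i ≤ 800 ∧
      (LRc 0 t (i * k) (i * k + (t + 2 * k)) S ∨ BTc 0 t ((i + 1) * k) ((i + 1) * k + t) S))
      (fun S hS => dich hk1 (by omega) hn hS)
    have h3 := ex_le P (fun i S => LRc 0 t (i * k) (i * k + (t + 2 * k)) S ∨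
      BTc 0 t ((i + 1) * k) ((i + 1) * k + t) S) (a := 2 * b) 800 (by
        intro i _
        refine (P.or_le _ _).trans ?_
        have a1 : P.p (LRc 0 t (i * k) (i * k + (t + 2 * k))) ≤ b := by
          rw [P.L_eq']
          exact P.L_mono geo (by omega) (by omega) (by omega)
        have a2 : P.p (BTc 0 t ((i + 1) * k) ((i + 1) * k + t)) ≤ b := by
          rw [P.B_eq']
          exact P.L_mono geo (by omega) (by omega) (by omega)
        have a3 : P.p (fun S => LRc 0 t (i * k) (i * k + (t + 2 * k)) S) =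
          P.p (LRc 0 t (i * k) (i * k + (t + 2 * k))) := rfl
        have a4 : P.p (fun S => BTc 0 t ((i + 1) * k) ((i + 1) * k + t) S) =
          P.p (BTc 0 t ((i + 1) * k) ((i + 1) * k + t)) := rfl
        rw [a3, a4]
        linarith)
    have h4 : P.p (LRc 0 t 0 (4 * t)) = P.L t (4 * t) := rfl
    rw [h4] at h2
    have hb0 : 0 ≤ b := P.L_nonneg _ _
    have h5 := h2.trans h3
    push_cast at h5
    linarith

/-- The near-square constant at the small scales. -/
noncomputable def kQ (c0 c1 : ℝ) : ℝ := min (c0 / 5000 / 4 / 4000) (c1 ^ 400)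

theorem kQ_pos {c0 c1 : ℝ} (h0 : 0 < c0) (h1 : 0 < c1) : 0 < kQ c0 c1 := by
  unfold kQ; positivity

theorem kQ_le {c0 c1 : ℝ} (h0 : 0 < c0) : kQ c0 c1 ≤ c0 := by
  have : kQ c0 c1 ≤ c0 / 5000 / 4 / 4000 := min_le_left _ _
  linarith

/-- **The claim**: near-squares at all scales above `R`, with one constant, as long as there is no
long crossing. -/
theorem down (P : PP) {c0 c1 : ℝ} (h0 : 0 < c0) (h1 : 0 < c1) (hc1 : c1 ≤ P.L 1 0) (n R : ℤ)
    (hn : 20 ≤ n) (hR : 1 ≤ R)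
    (hwin : ∀ s, 1 ≤ s → n < 20 * s + 20 → s ≤ n → c0 ≤ P.L s (s + s / 50))
    (heps : ∀ s, R < s → s ≤ n → Eps P s ≤ (kQ c0 c1 / 5000) ^ 6) :
    ∀ s, R ≤ s → s ≤ n → kQ c0 c1 ≤ P.L s (s + s / 50) := by
  have hq := kQ_pos h0 h1
  have hqp := kQ_le (c1 := c1) h0
  have htop : c0 ≤ P.L (n - n / 50) n := by
    have h4 := hwin (n - n / 50) (by omega) (by omega) (by omega)
    exact h4.trans (P.L_mono geo (by omega) le_rfl (by omega))
  have key : ∀ m : ℕ, ∀ s : ℤ, R ≤ s → n ≤ s + m → s ≤ n → kQ c0 c1 ≤ P.L s (s + s / 50) := by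
    intro m
    induction m with
    | zero =>
      intro s hs1 hs2 hs3
      exact hqp.trans (hwin s (by omega) (by push_cast at hs2; omega) hs3)
    | succ m ih =>
      intro s hs1 hs2 hs3
      rcases lt_or_ge n (20 * s) with h5 | h5
      · exact hqp.trans (hwin s (by omega) (by omega) hs3)
      · have hA := armTop P c0 (kQ c0 c1) s n hq hqp (by omega) h5 htop
          (fun t ht1 ht2 => ih t (by omega) (by push_cast at hs2; omega) ht2)
          (fun t ht1 ht2 => heps t (by omega) ht2)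
        have hO := out_of_arm P (by omega) h5 hA
        have hE := Vale.Agent.P159.TM.H121.easy_of_out P (by omega) hO
        exact step_pt P (c0 / 5000 / 4) c1 h1 hc1 s (by omega) hE
  intro s hs1 hs2
  exact key (n - s).toNat s hs1 (by omega) hs2

/-- **RSW**: near-squares in the window `[n / 20, n]` only, and one edge. -/
theorem rsw_win (c0 c1 : ℝ) (h0 : 0 < c0) (h1 : 0 < c1) :
    ∃ c : ℝ, 0 < c ∧ ∀ (P : PP) (n : ℤ), 20 ≤ n →
      (∀ s, 1 ≤ s → n < 20 * s + 20 → s ≤ n → c0 ≤ P.L s (s + s / 50)) → c1 ≤ P.L 1 0 →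
      c ≤ P.L (4 * n) n ∧ ∀ p q : ℤ, c ≤ P.p (Ann p q n) := by
  obtain ⟨q, hqdef⟩ : ∃ q, q = kQ c0 c1 := ⟨_, rfl⟩
  have hq : 0 < q := hqdef ▸ kQ_pos h0 h1
  have h80 : 0 < c1 ^ 80 := by positivity
  have hm := kM_pos hq h80
  have hl := kL_pos hq h80
  have he := kE_pos hq h80
  have hm1 : kM q (c1 ^ 80) ≤ 1 := min_le_left _ _
  refine ⟨kM q (c1 ^ 80) ^ 4, by positivity, fun P n hn hwin hc1 => ?_⟩
  have hc80 : c1 ^ 80 ≤ P.L 80 20 := by
    have h2 := L_seg P h1.le hc1 79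
    refine h2.trans ?_
    exact P.L_mono geo (by norm_num) (by norm_num) (by norm_num)
  have key : kM q (c1 ^ 80) ≤ P.L (4 * n) n := by
    obtain ⟨r, hr, hrn, hlast, hall⟩ := exists_last (fun t => (q / 5000) ^ 6 < Eps P t) n hn
    have hsq : ∀ s, r ≤ s → s ≤ n → q ≤ P.L s (s + s / 50) := by
      rw [hqdef]
      refine down P h0 h1 hc1 n r hn (by omega) hwin ?_
      rw [← hqdef]
      exact fun s hs1 hs2 => not_lt.1 (hall s hs1 hs2)
    have hL := L_last P hq hr (hsq r le_rfl hrn) hc80 hlast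
    rcases lt_or_ge n (5000 * r) with hlt | hge
    · exact (min_le_right _ _).trans ((min_le_left _ _).trans
        (L_near P hq hl hr hrn hlt (hsq r le_rfl hrn) hL))
    · have hA := armAll P q r n hq (by omega) (fun s hs1 hs2 => hsq s hs1.le hs2)
        (fun s hs1 hs2 => not_lt.1 (hall s hs1 hs2)) (n - 4 * r) (by omega) (by omega)
      have hC : kL q (c1 ^ 80) ^ 4 ≤ P.p (Ann 0 0 r) := P.Ann_ge 0 0 hl.le hL
      have h6 := l4 P (q / 5000) (kL q (c1 ^ 80) ^ 4) (n - 4 * r) r r (by positivity)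
        (by positivity) (by omega) le_rfl (by omega) (by omega) hA hC
      have h7 : kE q (c1 ^ 80) ≤ Eps P n := by
        refine h6.trans (P.L_mono geo (by omega) (by omega) (by omega))
      exact (min_le_right _ _).trans ((min_le_right _ _).trans
        (l5core P q (kE q (c1 ^ 80)) n hq.le he.le hn (hsq n hrn le_rfl) h7))
  refine ⟨le_trans ?_ key, fun p q => P.Ann_ge p q hm.le key⟩
  calc kM q (c1 ^ 80) ^ 4 ≤ kM q (c1 ^ 80) ^ 1 := pow_le_pow_of_le_one hm.le hm1 (by norm_num)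
    _ = kM q (c1 ^ 80) := pow_one _

/-- **RSW**: easy crossings in the window `[n / 20, n]` only, and one edge. -/
theorem rsw_easy (p1 c1 : ℝ) (h0 : 0 < p1) (h1 : 0 < c1) :
    ∃ c : ℝ, 0 < c ∧ ∀ (P : PP) (n : ℤ), 20 ≤ n →
      (∀ s, 1 ≤ s → n < 20 * s + 20 → s ≤ n → p1 ≤ P.L s (4 * s)) → c1 ≤ P.L 1 0 →
      c ≤ P.L (4 * n) n ∧ ∀ p q : ℤ, c ≤ P.p (Ann p q n) := by
  obtain ⟨c, hc, h⟩ := rsw_win (min (p1 / 4000) (c1 ^ 400)) c1 (by positivity) h1
  exact ⟨c, hc, fun P n hn hwin hc1 => h P n hn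
    (fun s hs1 hs2 hs3 => step_pt P p1 c1 h1 hc1 s hs1 (hwin s hs1 hs2 hs3)) hc1⟩

end H112

end Vale.Agent.P159.RSW
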